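import Vale.Agent.P052.Colour

/-! Coordinates on symmetric matrices and the chart for signature `(1,3)`. -/

namespace Vale.Agent.P052

open Matrix Set Filter Topology

/-- The symmetric matrix with given upper triangular entries. -/
def mat (z : Sp 10) : M4 :=
  !![z 0, z 1, z 2, z 3; z 1, z 4, z 5, z 6; z 2, z 5, z 7, z 8; z 3, z 6, z 8, z 9]

/-- Upper triangular entries. -/
def unmat (A : M4) : Sp 10 :=
  ![A 0 0, A 0 1, A 0 2, A 0 3, A 1 1, A 1 2, A 1 3, A 2 2, A 2 3, A 3 3]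

theorem mat_symm (z : Sp 10) : (mat z)ᵀ = mat z := by
  ext i j; fin_cases i <;> fin_cases j <;> rfl

theorem unmat_mat (z : Sp 10) : unmat (mat z) = z := by
  ext i; fin_cases i <;> rfl

theorem mat_unmat {A : M4} (hA : Aᵀ = A) : mat (unmat A) = A := by
  have h : ∀ i j, A j i = A i j := fun i j => congrFun (congrFun hA i) j
  ext i j
  fin_cases i <;> fin_cases j <;> first | rfl | exact h _ _

theorem mat_neg (z : Sp 10) : mat (-z) = -mat z := by
  ext i j; fin_cases i <;> fin_cases j <;> rfl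

theorem continuous_mat : Continuous mat := by
  refine continuous_matrix fun i j => ?_
  fin_cases i <;> fin_cases j <;> exact continuous_apply _

theorem norm_le_of_mat {z : Sp 10} {C : ℝ} (hC : 0 ≤ C) (h : ∀ j k, |mat z j k| ≤ C) :
    ‖z‖ ≤ C := by
  rw [pi_norm_le_iff_of_nonneg hC]
  intro i
  fin_cases i
  exacts [h 0 0, h 0 1, h 0 2, h 0 3, h 1 1, h 1 2, h 1 3, h 2 2, h 2 3, h 3 3]

/-- The vector of the affine chart. -/
def xv (z : Sp 10) : V4 := ![1, z 1, z 2, z 3]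

/-- The rank one part. -/
def R1 (z : Sp 10) : M4 := Matrix.of fun i j => z 0 * (xv z i * xv z j)

/-- The part living on the orthogonal complement. -/
def Bm (z : Sp 10) : M4 :=
  !![z 1 * (z 4 * z 1 + z 5 * z 2 + z 6 * z 3) + z 2 * (z 5 * z 1 + z 7 * z 2 + z 8 * z 3)
      + z 3 * (z 6 * z 1 + z 8 * z 2 + z 9 * z 3),
      -(z 4 * z 1 + z 5 * z 2 + z 6 * z 3), -(z 5 * z 1 + z 7 * z 2 + z 8 * z 3),
      -(z 6 * z 1 + z 8 * z 2 + z 9 * z 3);
    -(z 4 * z 1 + z 5 * z 2 + z 6 * z 3), z 4, z 5, z 6;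
    -(z 5 * z 1 + z 7 * z 2 + z 8 * z 3), z 5, z 7, z 8;
    -(z 6 * z 1 + z 8 * z 2 + z 9 * z 3), z 6, z 8, z 9]

/-- The chart in coordinates. -/
def prm (z : Sp 10) : Sp 10 :=
  ![z 0 + (z 1 * (z 4 * z 1 + z 5 * z 2 + z 6 * z 3) + z 2 * (z 5 * z 1 + z 7 * z 2 + z 8 * z 3)
      + z 3 * (z 6 * z 1 + z 8 * z 2 + z 9 * z 3)),
    z 0 * z 1 - (z 4 * z 1 + z 5 * z 2 + z 6 * z 3),
    z 0 * z 2 - (z 5 * z 1 + z 7 * z 2 + z 8 * z 3),
    z 0 * z 3 - (z 6 * z 1 + z 8 * z 2 + z 9 * z 3),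
    z 0 * (z 1 * z 1) + z 4, z 0 * (z 1 * z 2) + z 5, z 0 * (z 1 * z 3) + z 6,
    z 0 * (z 2 * z 2) + z 7, z 0 * (z 2 * z 3) + z 8, z 0 * (z 3 * z 3) + z 9]

/-- The quadratic form of the lower block. -/
def qb (z : Sp 10) (c : Sp 3) : ℝ :=
  z 4 * c 0 ^ 2 + z 7 * c 1 ^ 2 + z 9 * c 2 ^ 2 + 2 * z 5 * c 0 * c 1 + 2 * z 6 * c 0 * c 2
    + 2 * z 8 * c 1 * c 2

theorem R1_symm (z : Sp 10) : (R1 z)ᵀ = R1 z := by
  ext i j; simp [R1, mul_comm]

theorem Bm_symm (z : Sp 10) : (Bm z)ᵀ = Bm z := by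
  ext i j; fin_cases i <;> fin_cases j <;> rfl

theorem mat_prm (z : Sp 10) : mat (prm z) = R1 z + Bm z := by
  ext i j
  fin_cases i <;> fin_cases j <;> simp [mat, prm, R1, Bm, xv, mul_comm, sub_eq_add_neg]

theorem continuous_xv : Continuous xv := by
  refine continuous_pi fun i => ?_
  fin_cases i
  exacts [continuous_const, continuous_apply 1, continuous_apply 2, continuous_apply 3]

theorem continuous_R1 : Continuous R1 := by
  refine continuous_matrix fun i j => ?_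
  have h := continuous_xv
  simp only [R1, of_apply]
  fun_prop

theorem continuous_Bm : Continuous Bm := by
  refine continuous_matrix fun i j => ?_
  fin_cases i <;> fin_cases j <;> simp [Bm] <;> fun_prop

theorem contDiff_prm : ContDiff ℝ 1 prm := by
  refine contDiff_pi.2 fun i => ?_
  fin_cases i <;> simp [prm] <;> fun_prop

theorem Bm_xv (z : Sp 10) : Bm z *ᵥ xv z = 0 := by
  ext i
  fin_cases i <;> simp [Bm, xv, mulVec, dotProduct, Fin.sum_univ_four] <;> ring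

theorem R1_mulVec (z : Sp 10) (u : V4) : R1 z *ᵥ u = (z 0 * (xv z ⬝ᵥ u)) • xv z := by
  ext i
  simp [R1, mulVec, dotProduct, Fin.sum_univ_four]; ring

theorem xv_dot_pos (z : Sp 10) : 0 < xv z ⬝ᵥ xv z := by
  simp only [xv, dotProduct, Fin.sum_univ_four]
  simp
  nlinarith [mul_self_nonneg (z 1), mul_self_nonneg (z 2), mul_self_nonneg (z 3)]

theorem R1_psd {z : Sp 10} (h : 0 ≤ z 0) : (R1 z).PosSemidef := by
  refine psd_of (R1_symm z) fun v => ?_
  rw [R1_mulVec, dotProduct_smul, dotProduct_comm v, smul_eq_mul, mul_assoc]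
  exact mul_nonneg h (mul_self_nonneg _)

theorem neg_R1_psd {z : Sp 10} (h : z 0 ≤ 0) : (-R1 z).PosSemidef := by
  refine psd_of (by rw [transpose_neg, R1_symm]) fun v => ?_
  rw [neg_mulVec, dotProduct_neg, R1_mulVec, dotProduct_smul, dotProduct_comm v, smul_eq_mul,
    mul_assoc]
  nlinarith [mul_self_nonneg (xv z ⬝ᵥ v)]

theorem Bm_form (z : Sp 10) (v : V4) :
    v ⬝ᵥ Bm z *ᵥ v = qb z ![v 1 - v 0 * z 1, v 2 - v 0 * z 2, v 3 - v 0 * z 3] := by
  simp [Bm, qb, mulVec, dotProduct, Fin.sum_univ_four]; ring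

theorem neg_Bm_psd {z : Sp 10} (h : ∀ c, qb z c ≤ 0) : (-Bm z).PosSemidef := by
  refine psd_of (by rw [transpose_neg, Bm_symm]) fun v => ?_
  rw [neg_mulVec, dotProduct_neg, Bm_form]
  linarith [h ![v 1 - v 0 * z 1, v 2 - v 0 * z 2, v 3 - v 0 * z 3]]

theorem R1_mul_Bm (z : Sp 10) : R1 z * Bm z = 0 := by
  ext i j
  have h := congrFun (Bm_xv z) j
  have h2 : ∀ k, Bm z k j = Bm z j k := fun k => congrFun (congrFun (Bm_symm z) j) k
  simp only [mulVec, dotProduct, Fin.sum_univ_four, Pi.zero_apply] at h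
  simp only [mul_apply, Fin.sum_univ_four, R1, of_apply, h2, Matrix.zero_apply]
  linear_combination (z 0 * xv z i) * h

theorem dec_prm {z : Sp 10} (h0 : 0 ≤ z 0) (h : (-Bm z).PosSemidef) :
    Dec (mat (prm z)) (R1 z) (-Bm z) :=
  ⟨R1_psd h0, h, by rw [mat_prm, sub_neg_eq_add], by rw [mul_neg, R1_mul_Bm, neg_zero]⟩

/-- The domain of the chart. -/
def Dm : Set (Sp 10) := {z | 0 < z 0 ∧ ∀ c : Sp 3, c ≠ 0 → qb z c < 0}

theorem qb_smul (z : Sp 10) (t : ℝ) (c : Sp 3) : qb z (t • c) = t ^ 2 * qb z c := by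
  simp [qb]; ring

theorem Dm.le {z : Sp 10} (h : z ∈ Dm) (c : Sp 3) : qb z c ≤ 0 := by
  by_cases hc : c = 0
  · subst hc; simp [qb]
  · exact (h.2 c hc).le

theorem isOpen_Dm : IsOpen Dm := by
  rw [isOpen_iff_mem_nhds]
  intro z hz
  have h1 : ∀ᶠ w in 𝓝 z, 0 < w 0 :=
    (continuous_apply 0).continuousAt.eventually (lt_mem_nhds hz.1)
  have hq : Continuous fun p : Sp 10 × Sp 3 => qb p.1 p.2 := by unfold qb; fun_prop
  have h2 : ∀ᶠ w in 𝓝 z, ∀ c ∈ Metric.sphere (0 : Sp 3) 1, qb w c < 0 := by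
    refine (isCompact_sphere (0 : Sp 3) 1).eventually_forall_of_forall_eventually
      (P := fun w c => qb w c < 0) fun c hc => ?_
    have hc0 : c ≠ 0 := by rintro rfl; simp at hc
    exact hq.continuousAt.eventually (gt_mem_nhds (hz.2 c hc0))
  filter_upwards [h1, h2] with w a b
  refine ⟨a, fun c hc => ?_⟩
  have hn : 0 < ‖c‖ := norm_pos_iff.2 hc
  have := b (‖c‖⁻¹ • c) (by
    rw [mem_sphere_zero_iff_norm, norm_smul, norm_inv, norm_norm, inv_mul_cancel₀ hn.ne'])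
  rw [qb_smul] at this
  have h3 : 0 < (‖c‖⁻¹) ^ 2 := by positivity
  nlinarith

theorem convex_Dm : Convex ℝ Dm := by
  intro z hz w hw a b ha hb hab
  have key : ∀ p q : ℝ, 0 < p → 0 < q → 0 < a * p + b * q := fun p q hp hq => by
    rcases eq_or_lt_of_le ha with h | h
    · have : b = 1 := by linarith
      rw [← h, this]; linarith
    · nlinarith [mul_pos h hp, mul_nonneg hb hq.le]
  refine ⟨by simpa using key _ _ hz.1 hw.1, fun c hc => ?_⟩
  have h1 : qb (a • z + b • w) c = a * qb z c + b * qb w c := by simp [qb]; ring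
  have := key _ _ (neg_pos.2 (hz.2 c hc)) (neg_pos.2 (hw.2 c hc))
  rw [h1]; linarith

theorem injOn_prm : InjOn prm Dm := by
  intro z hz w hw h
  have d1 := dec_prm hz.1.le (neg_Bm_psd (Dm.le hz))
  have d2 := dec_prm hw.1.le (neg_Bm_psd (Dm.le hw))
  rw [h] at d1
  have e1 : R1 z = R1 w := d1.pos_eq.symm.trans d2.pos_eq
  have e2 : Bm z = Bm w := neg_injective (d1.neg.pos_eq.symm.trans d2.neg.pos_eq)
  have a0 : z 0 = w 0 := by simpa [R1, xv] using congrFun (congrFun e1 0) 0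
  have a1 : z 1 = w 1 := by
    simpa [R1, xv, a0, hw.1.ne'] using congrFun (congrFun e1 0) 1
  have a2 : z 2 = w 2 := by
    simpa [R1, xv, a0, hw.1.ne'] using congrFun (congrFun e1 0) 2
  have a3 : z 3 = w 3 := by
    simpa [R1, xv, a0, hw.1.ne'] using congrFun (congrFun e1 0) 3
  ext i
  fin_cases i
  exacts [a0, a1, a2, a3, congrFun (congrFun e2 1) 1, congrFun (congrFun e2 1) 2,
    congrFun (congrFun e2 1) 3, congrFun (congrFun e2 2) 2, congrFun (congrFun e2 2) 3,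
    congrFun (congrFun e2 3) 3]

theorem three_sq {a b c : ℝ} (h : a ^ 2 + b ^ 2 + c ^ 2 ≤ 0) : a = 0 ∧ b = 0 ∧ c = 0 := by
  refine ⟨?_, ?_, ?_⟩ <;> nlinarith [sq_nonneg a, sq_nonneg b, sq_nonneg c]

theorem jac_prm_ne_zero {z : Sp 10} (hz : z ∈ Dm) : jac prm z ≠ 0 := by
  refine det_ne_zero_of_inj _ fun h hh => ?_
  have hline : HasDerivAt (fun t : ℝ => z + t • h) h 0 := by
    simpa using ((hasDerivAt_id (0 : ℝ)).smul_const h).const_add z
  have h1 : HasDerivAt (fun t : ℝ => prm (z + t • h)) 0 0 := by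
    have h2 : HasFDerivAt prm (fderiv ℝ prm z) (z + (0 : ℝ) • h) := by
      simpa using (contDiff_prm.differentiable one_ne_zero z).hasFDerivAt
    have := h2.comp_hasDerivAt (0 : ℝ) hline
    rwa [hh] at this
  have h3 : ∀ i, HasDerivAt (fun t : ℝ => prm (z + t • h) i) 0 0 := fun i =>
    hasDerivAt_pi.1 h1 i
  have k : ∀ i, HasDerivAt (fun t : ℝ => (z + t • h) i) (h i) 0 := fun i =>
    hasDerivAt_pi.1 hline i
  have w1 := (((k 4).mul (k 1)).add ((k 5).mul (k 2))).add ((k 6).mul (k 3))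
  have w2 := (((k 5).mul (k 1)).add ((k 7).mul (k 2))).add ((k 8).mul (k 3))
  have w3 := (((k 6).mul (k 1)).add ((k 8).mul (k 2))).add ((k 9).mul (k 3))
  have e0 := (h3 0).unique ((k 0).add ((((k 1).mul w1).add ((k 2).mul w2)).add ((k 3).mul w3)))
  have e1 := (h3 1).unique (((k 0).mul (k 1)).sub w1)
  have e2 := (h3 2).unique (((k 0).mul (k 2)).sub w2)
  have e3 := (h3 3).unique (((k 0).mul (k 3)).sub w3)
  have e4 := (h3 4).unique (((k 0).mul ((k 1).mul (k 1))).add (k 4))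
  have e5 := (h3 5).unique (((k 0).mul ((k 1).mul (k 2))).add (k 5))
  have e6 := (h3 6).unique (((k 0).mul ((k 1).mul (k 3))).add (k 6))
  have e7 := (h3 7).unique (((k 0).mul ((k 2).mul (k 2))).add (k 7))
  have e8 := (h3 8).unique (((k 0).mul ((k 2).mul (k 3))).add (k 8))
  have e9 := (h3 9).unique (((k 0).mul ((k 3).mul (k 3))).add (k 9))
  simp only [zero_smul, add_zero, Pi.mul_apply, Pi.add_apply, Pi.zero_apply] at e0 e1 e2 e3 e4 e5 e6 e7 e8 e9
  have hq := Dm.le hz ![h 1, h 2, h 3]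
  simp only [qb, cons_val_zero, cons_val_one, cons_val_two, head_cons, tail_cons] at hq
  have hl := hz.1
  set r := 1 + z 1 ^ 2 + z 2 ^ 2 + z 3 ^ 2 with hr
  set s := z 1 * h 1 + z 2 * h 2 + z 3 * h 3 with hs
  have hrpos : 0 < r := by positivity
  have f1 : h 0 * r * z 1 + z 0 * r * h 1 + z 0 * s * z 1
      - (z 4 * h 1 + z 5 * h 2 + z 6 * h 3) = 0 := by
    rw [hr, hs]; linear_combination -e1 - z 1 * e4 - z 2 * e5 - z 3 * e6
  have f2 : h 0 * r * z 2 + z 0 * r * h 2 + z 0 * s * z 2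
      - (z 5 * h 1 + z 7 * h 2 + z 8 * h 3) = 0 := by
    rw [hr, hs]; linear_combination -e2 - z 1 * e5 - z 2 * e7 - z 3 * e8
  have f3 : h 0 * r * z 3 + z 0 * r * h 3 + z 0 * s * z 3
      - (z 6 * h 1 + z 8 * h 2 + z 9 * h 3) = 0 := by
    rw [hr, hs]; linear_combination -e3 - z 1 * e6 - z 2 * e8 - z 3 * e9
  have f0 : r * (h 0 * r + 2 * z 0 * s) = 0 := by
    have : r * (h 0 * r + 2 * z 0 * s) = 2 * (z 1 * (h 0 * r * z 1 + z 0 * r * h 1 + z 0 * s * z 1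
      - (z 4 * h 1 + z 5 * h 2 + z 6 * h 3)) + z 2 * (h 0 * r * z 2 + z 0 * r * h 2 + z 0 * s * z 2
      - (z 5 * h 1 + z 7 * h 2 + z 8 * h 3)) + z 3 * (h 0 * r * z 3 + z 0 * r * h 3 + z 0 * s * z 3
      - (z 6 * h 1 + z 8 * h 2 + z 9 * h 3))) := by
      rw [hr, hs]
      linear_combination -e0 + z 1 * z 1 * e4 + 2 * z 1 * z 2 * e5 + 2 * z 1 * z 3 * e6
        + z 2 * z 2 * e7 + 2 * z 2 * z 3 * e8 + z 3 * z 3 * e9
    rw [this, f1, f2, f3]; ring
  have g0 : h 0 * r + 2 * z 0 * s = 0 := (mul_eq_zero.1 f0).resolve_left hrpos.ne'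
  have g1 : z 0 * (r * (h 1 ^ 2 + h 2 ^ 2 + h 3 ^ 2) - s ^ 2) ≤ 0 := by
    have : z 0 * (r * (h 1 ^ 2 + h 2 ^ 2 + h 3 ^ 2) - s ^ 2)
        = z 4 * h 1 ^ 2 + z 7 * h 2 ^ 2 + z 9 * h 3 ^ 2 + 2 * z 5 * h 1 * h 2
          + 2 * z 6 * h 1 * h 3 + 2 * z 8 * h 2 * h 3 := by
      have hs' : s = z 1 * h 1 + z 2 * h 2 + z 3 * h 3 := hs
      linear_combination h 1 * f1 + h 2 * f2 + h 3 * f3 - s * g0 + (h 0 * r + z 0 * s) * hs'
    rw [this]; exact hq
  have g2 : r * (h 1 ^ 2 + h 2 ^ 2 + h 3 ^ 2) - s ^ 2 ≤ 0 := by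
    by_contra hc
    exact absurd g1 (not_le.2 (mul_pos hl (not_le.1 hc)))
  have g3 : h 1 ^ 2 + h 2 ^ 2 + h 3 ^ 2 ≤ 0 := by
    have : r * (h 1 ^ 2 + h 2 ^ 2 + h 3 ^ 2) - s ^ 2 = (h 1 ^ 2 + h 2 ^ 2 + h 3 ^ 2)
        + ((z 1 * h 2 - z 2 * h 1) ^ 2 + (z 1 * h 3 - z 3 * h 1) ^ 2
          + (z 2 * h 3 - z 3 * h 2) ^ 2) := by rw [hr, hs]; ring
    rw [this] at g2
    exact (le_add_of_nonneg_right (by positivity)).trans g2
  obtain ⟨a1, a2, a3⟩ := three_sq g3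
  have a0 : h 0 = 0 := by
    rw [hs, a1, a2, a3] at g0
    have : h 0 * r = 0 := by simpa using g0
    exact (mul_eq_zero.1 this).resolve_right hrpos.ne'
  simp only [a0, a1, a2, a3, zero_mul, mul_zero, add_zero, zero_add] at e4 e5 e6 e7 e8 e9
  ext i
  fin_cases i
  exacts [a0, a1, a2, a3, e4.symm, e5.symm, e6.symm, e7.symm, e8.symm, e9.symm]

theorem exists_sign : ∃ ε : ℤ, ε ≠ 0 ∧ ∀ z ∈ Dm, jac prm z ≠ 0 ∧ sgn (jac prm z) = ε := by
  rcases Dm.eq_empty_or_nonempty with h | ⟨z₀, hz₀⟩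
  · exact ⟨1, one_ne_zero, by simp [h]⟩
  refine ⟨sgn (jac prm z₀), by rcases sgn_eq_or (jac prm z₀) with h | h <;> simp [h],
    fun z hz => ⟨jac_prm_ne_zero hz, ?_⟩⟩
  have hc := (continuous_jac contDiff_prm).continuousOn (s := Dm)
  have hp := convex_Dm.isPreconnected
  unfold sgn
  by_cases h : 0 < jac prm z₀
  · rw [if_pos h, if_pos (pos_of_preconnected hp hc (fun x hx => jac_prm_ne_zero hx) hz₀ hz h)]
  · rw [if_neg h, if_neg fun h' =>
      h (pos_of_preconnected hp hc (fun x hx => jac_prm_ne_zero hx) hz hz₀ h')]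

end Vale.Agent.P052
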