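import Vale.Agent.P052.Odd

/-! Positive parts of symmetric matrices and the odd map attached to a colouring. -/

namespace Vale.Agent.P052

open Matrix Set Filter Topology

abbrev M4 : Type := Matrix (Fin 4) (Fin 4) ℝ
abbrev V4 : Type := Fin 4 → ℝ

/-- Orthogonal decomposition into positive and negative part. -/
structure Dec (A P N : M4) : Prop where
  hP : P.PosSemidef
  hN : N.PosSemidef
  eq : A = P - N
  mul : P * N = 0

theorem herm_iff {A : M4} : A.IsHermitian ↔ Aᵀ = A := by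
  rw [IsHermitian, conjTranspose_eq_transpose_of_trivial]

theorem psd_symm {P : M4} (h : P.PosSemidef) : Pᵀ = P := herm_iff.1 h.1

theorem psd_nonneg {P : M4} (h : P.PosSemidef) (v : V4) : 0 ≤ v ⬝ᵥ P *ᵥ v := by
  simpa using h.dotProduct_mulVec_nonneg v

theorem psd_of {P : M4} (h : Pᵀ = P) (h2 : ∀ v : V4, 0 ≤ v ⬝ᵥ P *ᵥ v) : P.PosSemidef :=
  PosSemidef.of_dotProduct_mulVec_nonneg (herm_iff.2 h) fun v => by simpa using h2 v

theorem psd_ker {P : M4} (h : P.PosSemidef) {v : V4} (hv : v ⬝ᵥ P *ᵥ v = 0) : P *ᵥ v = 0 :=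
  (h.dotProduct_mulVec_zero_iff v).1 (by simpa using hv)

theorem symm_dot {A : M4} (h : Aᵀ = A) (u v : V4) : u ⬝ᵥ A *ᵥ v = (A *ᵥ u) ⬝ᵥ v := by
  rw [dotProduct_mulVec, ← mulVec_transpose, h]

open scoped MatrixOrder in
theorem exists_dec {A : M4} (hA : Aᵀ = A) : ∃ P N, Dec A P N :=
  ⟨A⁺, A⁻, nonneg_iff_posSemidef.1 (CFC.posPart_nonneg A),
    nonneg_iff_posSemidef.1 (CFC.negPart_nonneg A),
    (CFC.posPart_sub_negPart A (herm_iff.2 hA)).symm, CFC.posPart_mul_negPart A⟩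

open scoped MatrixOrder in
theorem trace_mul_nonneg {P Q : M4} (hP : P.PosSemidef) (hQ : Q.PosSemidef) :
    0 ≤ (P * Q).trace := by
  obtain ⟨B, rfl⟩ := CStarAlgebra.nonneg_iff_eq_star_mul_self.1 (nonneg_iff_posSemidef.2 hQ)
  rw [← mul_assoc, trace_mul_comm, ← mul_assoc]
  exact (hP.mul_mul_conjTranspose_same B).trace_nonneg

theorem trace_sq {X : M4} (hX : Xᵀ = X) : (X * X).trace = ∑ i, ∑ j, X i j ^ 2 := by
  simp only [trace, diag, mul_apply]
  refine Finset.sum_congr rfl fun i _ => Finset.sum_congr rfl fun j _ => ?_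
  have : X j i = X i j := congrFun (congrFun hX i) j
  rw [this, sq]

theorem entry_sq_le {X : M4} (hX : Xᵀ = X) (i j : Fin 4) : X i j ^ 2 ≤ (X * X).trace := by
  rw [trace_sq hX]
  calc X i j ^ 2 ≤ ∑ j, X i j ^ 2 :=
        Finset.single_le_sum (f := fun j => X i j ^ 2) (fun _ _ => sq_nonneg _) (Finset.mem_univ j)
    _ ≤ _ := Finset.single_le_sum (f := fun i => ∑ j, X i j ^ 2)
        (fun _ _ => Finset.sum_nonneg fun _ _ => sq_nonneg _) (Finset.mem_univ i)

theorem Dec.symm' {A P N : M4} (h : Dec A P N) : Aᵀ = A := by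
  rw [h.eq, transpose_sub, psd_symm h.hP, psd_symm h.hN]

theorem Dec.neg {A P N : M4} (h : Dec A P N) : Dec (-A) N P := by
  refine ⟨h.hN, h.hP, by rw [h.eq, neg_sub], ?_⟩
  have := congrArg transpose h.mul
  rwa [transpose_mul, psd_symm h.hP, psd_symm h.hN, transpose_zero] at this

theorem dec_lip {A P N A' P' N' : M4} (h : Dec A P N) (h' : Dec A' P' N') (i j : Fin 4) :
    (P i j - P' i j) ^ 2 ≤ ((A - A') * (A - A')).trace := by
  have hD : (P - P')ᵀ = P - P' := by rw [transpose_sub, psd_symm h.hP, psd_symm h'.hP]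
  have hE : (N - N')ᵀ = N - N' := by rw [transpose_sub, psd_symm h.hN, psd_symm h'.hN]
  have h1 := entry_sq_le hD i j
  have h2 : 0 ≤ ((N - N') * (N - N')).trace := (sq_nonneg _).trans (entry_sq_le hE 0 0)
  have h3 : A - A' = (P - P') - (N - N') := by rw [h.eq, h'.eq]; abel
  have h4 : ((P - P') * (N - N')).trace ≤ 0 := by
    rw [sub_mul, mul_sub, mul_sub, h.mul, h'.mul]
    simp only [trace_sub, trace_zero]
    linarith [trace_mul_nonneg h.hP h'.hN, trace_mul_nonneg h'.hP h.hN]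
  have h5 : ((A - A') * (A - A')).trace = ((P - P') * (P - P')).trace
      - 2 * ((P - P') * (N - N')).trace + ((N - N') * (N - N')).trace := by
    rw [h3]
    generalize P - P' = D
    generalize N - N' = E
    rw [sub_mul, mul_sub, mul_sub]
    simp only [trace_sub]
    rw [trace_mul_comm E D]; ring
  rw [Matrix.sub_apply] at h1
  linarith

open Classical in
/-- The positive part. -/
noncomputable def pos (A : M4) : M4 := if h : ∃ P N, Dec A P N then h.choose else 0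

theorem Dec.pos_eq {A P N : M4} (h : Dec A P N) : pos A = P := by
  have h1 : ∃ P N, Dec A P N := ⟨P, N, h⟩
  unfold pos
  rw [dif_pos h1]
  obtain ⟨N', h'⟩ := h1.choose_spec
  ext i j
  have := dec_lip h' h i j
  simp only [sub_self, mul_zero, trace_zero] at this
  exact sub_eq_zero.1 (pow_eq_zero_iff two_ne_zero |>.1 (le_antisymm this (sq_nonneg _)))

theorem dec_pos {A : M4} (hA : Aᵀ = A) : Dec A (pos A) (pos (-A)) := by
  obtain ⟨P, N, h⟩ := exists_dec hA
  rw [h.pos_eq, h.neg.pos_eq]; exact h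

theorem continuous_pos {X : Type*} [TopologicalSpace X] {A : X → M4} (hA : Continuous A)
    (hs : ∀ x, (A x)ᵀ = A x) : Continuous fun x => pos (A x) := by
  refine continuous_matrix fun i j => continuous_iff_continuousAt.2 fun x₀ => ?_
  have h1 : Continuous fun x => Real.sqrt (((A x - A x₀) * (A x - A x₀)).trace) := by
    refine Real.continuous_sqrt.comp ?_
    exact ((hA.sub continuous_const).matrix_mul (hA.sub continuous_const)).matrix_trace
  have h2 : Tendsto (fun x => Real.sqrt (((A x - A x₀) * (A x - A x₀)).trace)) (𝓝 x₀) (𝓝 0) := by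
    have := h1.tendsto x₀
    simpa using this
  rw [ContinuousAt, tendsto_iff_norm_sub_tendsto_zero]
  refine squeeze_zero (fun _ => norm_nonneg _) (fun x => ?_) h2
  exact Real.abs_le_sqrt (dec_lip (dec_pos (hs x)) (dec_pos (hs x₀)) i j)

theorem Dec.ker {A P N : M4} (h : Dec A P N) {k : V4} (hk : A *ᵥ k = 0) : P *ᵥ k = 0 := by
  have h1 : P *ᵥ k = N *ᵥ k := by
    rw [h.eq, sub_mulVec] at hk; exact sub_eq_zero.1 hk
  have h2 : (P *ᵥ k) ⬝ᵥ (P *ᵥ k) = 0 := by
    rw [← symm_dot (psd_symm h.hP), h1, mulVec_mulVec, h.mul]; simp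
  exact dotProduct_self_eq_zero.1 h2

theorem Dec.orth {A P N : M4} (h : Dec A P N) (u v : V4) : (P *ᵥ u) ⬝ᵥ (N *ᵥ v) = 0 := by
  rw [← symm_dot (psd_symm h.hP), mulVec_mulVec, h.mul]; simp

/-- A covering of the lines of four-space by ten open sets free of orthogonal pairs. -/
structure Col where
  Φ : Fin 10 → V4 → ℝ
  cont : ∀ i, Continuous (Φ i)
  nonneg : ∀ i v, 0 ≤ Φ i v
  homog : ∀ i (t : ℝ) v, Φ i (t • v) = |t| * Φ i v
  cover : ∀ v, v ≠ 0 → ∃ i, 0 < Φ i v
  noorth : ∀ i v w, 0 < Φ i v → 0 < Φ i w → v ⬝ᵥ w ≠ 0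

namespace Col

variable (c : Col)

theorem zero (i : Fin 10) : c.Φ i 0 = 0 := by
  have := c.homog i 0 0
  simpa using this

theorem smul_pos_iff {i : Fin 10} {t : ℝ} (ht : t ≠ 0) {v : V4} :
    0 < c.Φ i (t • v) ↔ 0 < c.Φ i v := by
  rw [c.homog]
  exact mul_pos_iff_of_pos_left (abs_pos.2 ht)

theorem pos_of_smul {i : Fin 10} {t : ℝ} {v : V4} (h : 0 < c.Φ i (t • v)) : 0 < c.Φ i v := by
  by_cases ht : t = 0
  · subst ht; rw [zero_smul, c.zero] at h; exact (lt_irrefl _ h).elim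
  · exact (c.smul_pos_iff ht).1 h

theorem ne_zero {i : Fin 10} {v : V4} (h : 0 < c.Φ i v) : v ≠ 0 := by
  rintro rfl; rw [c.zero] at h; exact lt_irrefl _ h

theorem exists_kappa : ∃ κ > 0, ∀ v, κ * ‖v‖ ≤ ∑ i, c.Φ i v := by
  have hc : Continuous fun v => ∑ i, c.Φ i v := continuous_finsetSum _ fun i _ => c.cont i
  obtain ⟨κ, hκ, h⟩ := exists_margin (f := fun v => ∑ i, c.Φ i v)
    (isCompact_sphere (0 : V4) 1) hc.continuousOn (by
      intro v hv
      have hv0 : v ≠ 0 := by rintro rfl; simp at hv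
      obtain ⟨i, hi⟩ := c.cover v hv0
      exact (Finset.sum_pos' (fun j _ => c.nonneg j v) ⟨i, Finset.mem_univ _, hi⟩).ne')
  refine ⟨κ, hκ, fun v => ?_⟩
  by_cases hv : v = 0
  · subst hv; simp [c.zero]
  have hn : 0 < ‖v‖ := norm_pos_iff.2 hv
  have h1 := h (‖v‖⁻¹ • v) (by
    rw [mem_sphere_zero_iff_norm, norm_smul, norm_inv, norm_norm, inv_mul_cancel₀ hn.ne'])
  simp only [c.homog] at h1
  rw [← Finset.mul_sum, Real.norm_of_nonneg (mul_nonneg (abs_nonneg _)
    (Finset.sum_nonneg fun j _ => c.nonneg j v)), abs_of_pos (inv_pos.2 hn)] at h1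
  rwa [← div_eq_inv_mul, le_div_iff₀ hn] at h1

/-- Largest colour value on the image of the unit ball. -/
noncomputable def fv (i : Fin 10) (P : M4) : ℝ :=
  sSup ((fun u : V4 => c.Φ i (P *ᵥ u)) '' Metric.closedBall 0 1)

theorem continuous_fv (i : Fin 10) : Continuous (c.fv i) :=
  (isCompact_closedBall (0 : V4) 1).continuous_sSup (f := fun (P : M4) (u : V4) => c.Φ i (P *ᵥ u))
    ((c.cont i).comp (continuous_fst.matrix_mulVec continuous_snd))

theorem le_fv (i : Fin 10) (P : M4) {u : V4} (hu : ‖u‖ ≤ 1) : c.Φ i (P *ᵥ u) ≤ c.fv i P :=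
  le_csSup ((isCompact_closedBall (0 : V4) 1).image
    ((c.cont i).comp (continuous_const.matrix_mulVec continuous_id))).bddAbove
    ⟨u, mem_closedBall_zero_iff.2 hu, rfl⟩

theorem fv_nonneg (i : Fin 10) (P : M4) : 0 ≤ c.fv i P :=
  (c.nonneg i _).trans (c.le_fv i P (u := 0) (by simp))

theorem fv_pos_iff {i : Fin 10} {P : M4} : 0 < c.fv i P ↔ ∃ u, 0 < c.Φ i (P *ᵥ u) := by
  constructor
  · intro h
    by_contra hne
    push Not at hne
    refine absurd h (not_lt.2 (csSup_le ⟨_, 0, by simp, rfl⟩ ?_))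
    rintro _ ⟨u, _, rfl⟩
    exact hne u
  · rintro ⟨u, hu⟩
    have hu0 : u ≠ 0 := by
      rintro rfl; rw [mulVec_zero, c.zero] at hu; exact lt_irrefl _ hu
    have hn : 0 < ‖u‖ := norm_pos_iff.2 hu0
    refine lt_of_lt_of_le ?_ (c.le_fv i P (u := ‖u‖⁻¹ • u) (by
      rw [norm_smul, norm_inv, norm_norm, inv_mul_cancel₀ hn.ne']))
    rw [mulVec_smul]
    exact (c.smul_pos_iff (inv_pos.2 hn).ne').2 hu

theorem fv_zero (i : Fin 10) : c.fv i 0 = 0 := by
  refine le_antisymm (not_lt.1 fun h => ?_) (c.fv_nonneg i 0)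
  obtain ⟨u, hu⟩ := c.fv_pos_iff.1 h
  rw [zero_mulVec, c.zero] at hu; exact lt_irrefl _ hu

/-- The odd map. -/
noncomputable def F (A : M4) : Sp 10 := fun i => c.fv i (pos A) - c.fv i (pos (-A))

theorem F_neg (A : M4) : c.F (-A) = -c.F A := by
  ext i; simp [F]

theorem F_dec {A P N : M4} (h : Dec A P N) (i : Fin 10) : c.F A i = c.fv i P - c.fv i N := by
  unfold F; rw [h.pos_eq, h.neg.pos_eq]

theorem not_both {A P N : M4} (h : Dec A P N) (i : Fin 10) : c.fv i P = 0 ∨ c.fv i N = 0 := by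
  by_contra hne
  push Not at hne
  obtain ⟨u, hu⟩ := c.fv_pos_iff.1 (lt_of_le_of_ne (c.fv_nonneg i P) hne.1.symm)
  obtain ⟨v, hv⟩ := c.fv_pos_iff.1 (lt_of_le_of_ne (c.fv_nonneg i N) hne.2.symm)
  exact c.noorth i _ _ hu hv (h.orth u v)

theorem F_pos_iff {A P N : M4} (h : Dec A P N) {i : Fin 10} :
    0 < c.F A i ↔ ∃ u, 0 < c.Φ i (P *ᵥ u) := by
  rw [← c.fv_pos_iff, c.F_dec h]
  have := c.fv_nonneg i P
  have := c.fv_nonneg i N
  rcases c.not_both h i with h1 | h1 <;> rw [h1] <;> constructor <;> intro <;> linarith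

theorem F_neg_iff {A P N : M4} (h : Dec A P N) {i : Fin 10} :
    c.F A i < 0 ↔ ∃ u, 0 < c.Φ i (N *ᵥ u) := by
  rw [← c.F_pos_iff h.neg, c.F_neg]; simp

theorem continuous_F {X : Type*} [TopologicalSpace X] {A : X → M4} (hA : Continuous A)
    (hs : ∀ x, (A x)ᵀ = A x) : Continuous fun x => c.F (A x) :=
  continuous_pi fun i => ((c.continuous_fv i).comp (continuous_pos hA hs)).sub
    ((c.continuous_fv i).comp (continuous_pos hA.neg fun x => by simp [hs x]))

theorem F_eq_zero_of_ker {A : M4} (hA : Aᵀ = A) {k : V4} (hk : A *ᵥ k = 0) {i : Fin 10}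
    (hi : 0 < c.Φ i k) : c.F A i = 0 := by
  have h := dec_pos hA
  by_contra hne
  rcases lt_or_gt_of_ne hne with h1 | h1
  · obtain ⟨u, hu⟩ := (c.F_neg_iff h).1 h1
    refine c.noorth i _ _ hi hu ?_
    rw [symm_dot (psd_symm h.hN), h.neg.ker (by rw [neg_mulVec, hk, neg_zero])]; simp
  · obtain ⟨u, hu⟩ := (c.F_pos_iff h).1 h1
    refine c.noorth i _ _ hi hu ?_
    rw [symm_dot (psd_symm h.hP), h.ker hk]; simp

theorem ker_eq_zero {A : M4} (hA : Aᵀ = A) (hF : ∀ i, c.F A i ≠ 0) {k : V4} (hk : A *ᵥ k = 0) :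
    k = 0 := by
  by_contra hne
  obtain ⟨i, hi⟩ := c.cover k hne
  exact hF i (c.F_eq_zero_of_ker hA hk hi)

theorem exists_bound : ∃ C > 0, ∀ A : M4, Aᵀ = A → ∀ j k, |A j k| ≤ C * ‖c.F A‖ := by
  obtain ⟨κ, hκ, h⟩ := c.exists_kappa
  refine ⟨20 / κ, by positivity, fun A hA j k => ?_⟩
  have hd := dec_pos hA
  have key : ∀ P : M4, (∀ i, c.fv i P ≤ ‖c.F A‖) → |P j k| ≤ 10 / κ * ‖c.F A‖ := by
    intro P hP
    have h1 := h (P *ᵥ Pi.single k 1)
    have h2 : ∑ i, c.Φ i (P *ᵥ Pi.single k 1) ≤ ∑ _i : Fin 10, ‖c.F A‖ :=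
      Finset.sum_le_sum fun i _ => (c.le_fv i P (by simp [Pi.norm_single])).trans (hP i)
    have h3 : |P j k| ≤ ‖P *ᵥ Pi.single k 1‖ := by
      have := norm_le_pi_norm (P *ᵥ Pi.single k 1) j
      simpa using this
    simp only [Finset.sum_const, Finset.card_univ, Fintype.card_fin, nsmul_eq_mul] at h2
    rw [div_mul_eq_mul_div, le_div_iff₀ hκ]
    push_cast at h2
    nlinarith
  have hi : ∀ i, c.fv i (pos A) ≤ ‖c.F A‖ ∧ c.fv i (pos (-A)) ≤ ‖c.F A‖ := by
    intro i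
    have h1 : |c.F A i| ≤ ‖c.F A‖ := norm_le_pi_norm (c.F A) i
    rw [c.F_dec hd] at h1
    have := c.fv_nonneg i (pos A)
    have := c.fv_nonneg i (pos (-A))
    have h2 := abs_le.1 h1
    have := norm_nonneg (c.F A)
    rcases c.not_both hd i with h3 | h3 <;> rw [h3] at h2 ⊢ <;> constructor <;> linarith
  have a := key _ fun i => (hi i).1
  have b := key _ fun i => (hi i).2
  have e : A j k = pos A j k - pos (-A) j k := by
    conv_lhs => rw [hd.eq]
    rfl
  rw [e]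
  refine (abs_sub _ _).trans ?_
  have : 20 / κ * ‖c.F A‖ = 10 / κ * ‖c.F A‖ + 10 / κ * ‖c.F A‖ := by ring
  linarith

theorem eq_zero_of_F {A : M4} (hA : Aᵀ = A) (h : c.F A = 0) : A = 0 := by
  obtain ⟨C, _, hC⟩ := c.exists_bound
  ext j k
  have := hC A hA j k
  rw [h, norm_zero, mul_zero] at this
  exact abs_nonpos_iff.1 this

end Col

end Vale.Agent.P052
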