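import Vale.Agent.P052.Faces

/-! The counting argument: the complex of colours cannot exist. -/

namespace Vale.Agent.P052

open Finset

theorem swap_sum {Q : Finset (Finset (Fin 10))} (j : ℕ) (g : Finset (Fin 10) → ℕ) :
    ∑ σ ∈ Q, ∑ e ∈ powersetCard j σ, g e
      = ∑ e ∈ powersetCard j (univ : Finset (Fin 10)), (Q.filter (e ⊆ ·)).card * g e := by
  have h : ∀ σ : Finset (Fin 10), ∑ e ∈ powersetCard j σ, g e
      = ∑ e ∈ powersetCard j (univ : Finset (Fin 10)), if e ⊆ σ then g e else 0 := by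
    intro σ
    rw [← sum_filter]
    congr 1
    ext e
    simp [mem_powersetCard, and_comm]
  simp_rw [h]
  rw [sum_comm]
  refine sum_congr rfl fun e _ => ?_
  rw [← sum_filter, sum_const, smul_eq_mul]

theorem choose_inter {Q : Finset (Finset (Fin 10))} (j : ℕ) (σ : Finset (Fin 10)) :
    ∑ σ' ∈ Q, (σ ∩ σ').card.choose j = ∑ ρ ∈ powersetCard j σ, (Q.filter (ρ ⊆ ·)).card := by
  have h : ∀ σ' : Finset (Fin 10), (σ ∩ σ').card.choose j
      = ∑ ρ ∈ powersetCard j σ, if ρ ⊆ σ' then 1 else 0 := by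
    intro σ'
    rw [← card_powersetCard, ← sum_filter, sum_const, smul_eq_mul, mul_one]
    congr 1
    ext e
    simp only [mem_powersetCard, subset_inter_iff, mem_filter]
    tauto
  simp_rw [h]
  rw [sum_comm]
  refine sum_congr rfl fun e _ => ?_
  rw [← sum_filter, sum_const, smul_eq_mul, mul_one]

theorem no_complex (Q : Finset (Finset (Fin 10))) (h4 : ∀ σ ∈ Q, σ.card = 4)
    (hint : ∀ σ ∈ Q, ∀ σ' ∈ Q, (σ ∪ σ').card ≤ 7)
    (h1 : ∀ ρ : Finset (Fin 10), ρ.card = 1 → (Q.filter (ρ ⊆ ·)).card = 14)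
    (h3 : ∀ σ ∈ Q, ∀ ρ ⊆ σ, ρ.card = 3 → (Q.filter (ρ ⊆ ·)).card = 2) : False := by
  set d : Finset (Fin 10) → ℕ := fun ρ => (Q.filter (ρ ⊆ ·)).card with hd
  have hN : Q.card = 35 := by
    have := swap_sum (Q := Q) 1 (fun _ => 1)
    rw [sum_congr rfl (g := fun _ => 4) (fun σ hσ => by simp [h4 σ hσ]),
      sum_congr (s₁ := powersetCard 1 univ) rfl (g := fun _ => 14) (fun e he => by
        rw [h1 e (mem_powersetCard.1 he).2])] at this
    simp at this
    omega
  have hrow : ∀ σ ∈ Q, ∑ e ∈ powersetCard 2 σ, d e = 28 := by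
    intro σ hσ
    have a1 := choose_inter (Q := Q) 1 σ
    have a2 := choose_inter (Q := Q) 2 σ
    have a3 := choose_inter (Q := Q) 3 σ
    rw [sum_congr rfl (g := fun _ => 14) (fun e he => h1 e (mem_powersetCard.1 he).2)] at a1
    rw [sum_congr rfl (g := fun _ => 2) (fun e he =>
      h3 σ hσ e (mem_powersetCard.1 he).1 (mem_powersetCard.1 he).2)] at a3
    simp only [sum_const, card_powersetCard, h4 σ hσ, smul_eq_mul] at a1 a3
    have key : ∀ σ' ∈ Q, (σ ∩ σ').card.choose 2 + 1 + (if σ' = σ then 1 else 0)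
        = (σ ∩ σ').card.choose 1 + (σ ∩ σ').card.choose 3 := by
      intro σ' hσ'
      have b1 := hint σ hσ σ' hσ'
      have b2 := card_union_add_card_inter σ σ'
      rw [h4 σ hσ, h4 σ' hσ'] at b2
      split_ifs with h
      · rw [h, inter_self, h4 σ hσ]; decide
      · have b3 : (σ ∩ σ').card ≠ 4 := by
          intro h5
          apply h
          have e1 : σ ∩ σ' = σ := eq_of_subset_of_card_le inter_subset_left (by rw [h5, h4 σ hσ])
          have e2 : σ ∩ σ' = σ' :=
            eq_of_subset_of_card_le inter_subset_right (by rw [h5, h4 σ' hσ'])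
          rw [← e2, e1]
        have b4 : (σ ∩ σ').card ≤ 4 := (card_le_card inter_subset_left).trans (h4 σ hσ).le
        have : (σ ∩ σ').card = 1 ∨ (σ ∩ σ').card = 2 ∨ (σ ∩ σ').card = 3 := by omega
        rcases this with h6 | h6 | h6 <;> rw [h6] <;> decide
    have b := sum_congr rfl key
    rw [sum_add_distrib, sum_add_distrib, sum_add_distrib, a1, a2, a3, sum_ite_eq', if_pos hσ,
      sum_const, hN] at b
    have c1 : Nat.choose 4 1 = 4 := by decide
    have c3 : Nat.choose 4 3 = 4 := by decide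
    rw [c1, c3] at b
    simp only [smul_eq_mul] at b
    simp only [hd]
    omega
  have s2 := swap_sum (Q := Q) 2 d
  rw [sum_congr rfl hrow, sum_const, hN] at s2
  have s1 := swap_sum (Q := Q) 2 (fun _ => 1)
  rw [sum_congr rfl (g := fun _ => 6) (fun σ hσ => by simp [h4 σ hσ]; decide), sum_const,
    hN] at s1
  have s3 : ∑ e ∈ powersetCard 2 (univ : Finset (Fin 10)), 9 * (d e * 1)
      ≤ ∑ e ∈ powersetCard 2 (univ : Finset (Fin 10)), (d e * d e + 20) := by
    refine sum_le_sum fun e _ => ?_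
    generalize d e = k
    rcases Nat.lt_or_ge k 5 with h | h
    · interval_cases k <;> norm_num
    · nlinarith
  rw [← mul_sum, sum_add_distrib, ← s1, ← s2, sum_const, card_powersetCard] at s3
  have c2 : Nat.choose (univ : Finset (Fin 10)).card 2 = 45 := by decide
  rw [c2] at s3
  simp at s3

open Classical in
theorem Col.false (c : Col) : False := by
  let n : Finset (Fin 10) → ℕ → ℕ := fun τ k =>
    (univ.filter fun σ => (τ ⊆ σ ∧ c.Face σ) ∧ σ.card = k).card
  have hds : ∀ τ : Finset (Fin 10), τ.Nonempty → c.Face τ →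
      (n τ 0 : ℤ) - n τ 1 + n τ 2 - n τ 3 + n τ 4 = 1 := by
    intro τ hne hτ
    have h := c.ds hne hτ
    rw [← sum_fiberwise_of_maps_to (t := range 5) (g := fun σ => σ.card) (fun σ hσ => by
      have := c.face_card (mem_filter.1 hσ).2.2
      rw [mem_range]; omega)] at h
    have h2 : ∀ k ∈ range 5, ∑ σ ∈ (univ.filter (fun σ => τ ⊆ σ ∧ c.Face σ)).filter
        (fun σ => σ.card = k), (-1 : ℤ) ^ (σᶜ).card = (n τ k : ℤ) * (-1) ^ (10 - k) := by
      intro k _
      rw [sum_congr rfl (g := fun _ => (-1 : ℤ) ^ (10 - k)) (fun σ hσ => by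
        rw [card_compl, Fintype.card_fin, (mem_filter.1 hσ).2]), sum_const, filter_filter]
      simp [n]
    rw [sum_congr rfl h2] at h
    simp only [sum_range_succ, sum_range_zero] at h
    norm_num at h
    linarith
  have hlt : ∀ (τ : Finset (Fin 10)) k, k < τ.card → n τ k = 0 := by
    intro τ k hk
    simp only [n, card_eq_zero, filter_eq_empty_iff]
    rintro σ - ⟨⟨a, -⟩, b⟩
    have := card_le_card a
    omega
  have heq : ∀ τ : Finset (Fin 10), c.Face τ → n τ τ.card = 1 := by
    intro τ hτ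
    simp only [n, card_eq_one]
    refine ⟨τ, ?_⟩
    ext σ
    simp only [mem_filter, mem_univ, true_and, mem_singleton]
    constructor
    · rintro ⟨⟨a, -⟩, b⟩
      exact (eq_of_subset_of_card_le a b.le).symm
    · rintro rfl; exact ⟨⟨Subset.rfl, hτ⟩, rfl⟩
  let Q : Finset (Finset (Fin 10)) := univ.filter fun σ => c.Face σ ∧ σ.card = 4
  have hQ : ∀ ρ, (Q.filter (ρ ⊆ ·)).card = n ρ 4 := by
    intro ρ
    simp only [Q, n, filter_filter]
    congr 1
    ext σ; simp only [mem_filter, mem_univ, true_and]; tauto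
  have h3 : ∀ ρ : Finset (Fin 10), c.Face ρ → ρ.card = 3 → n ρ 4 = 2 := by
    intro ρ hρ hc
    have a := hds ρ (card_pos.1 (by omega)) hρ
    have b := heq ρ hρ
    rw [hc] at b
    rw [hlt ρ 0 (by omega), hlt ρ 1 (by omega), hlt ρ 2 (by omega), b] at a
    omega
  have hpair : ∀ σ : Finset (Fin 10), σ.card = 2 → c.Face σ := by
    intro σ h
    obtain ⟨i, j, -, rfl⟩ := card_eq_two.1 h
    exact c.face_pair i j
  refine no_complex Q (fun σ hσ => (mem_filter.1 hσ).2.2)
    (fun σ hσ σ' hσ' => c.face_union (mem_filter.1 hσ).2.1 (mem_filter.1 hσ').2.1)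
    (fun ρ hρ => ?_) (fun σ hσ ρ hρ hc => ?_)
  · have hf : c.Face ρ := by
      obtain ⟨v, rfl⟩ := card_eq_one.1 hρ
      exact c.face_mono (c.face_pair v v) (by simp)
    have a := hds ρ (card_pos.1 (by omega)) hf
    have b := heq ρ hf
    rw [hρ] at b
    have e2 : n ρ 2 = 9 := by
      have : (univ.filter fun σ => (ρ ⊆ σ ∧ c.Face σ) ∧ σ.card = 2)
          = (powersetCard 2 univ).filter (ρ ⊆ ·) := by
        ext σ
        simp only [mem_filter, mem_univ, true_and, mem_powersetCard, subset_univ]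
        exact ⟨fun h => ⟨h.2, h.1.1⟩, fun h => ⟨⟨h.2, hpair σ h.1⟩, h.1⟩⟩
      simp only [n]
      rw [this, card_filter_powersetCard_subset _ _ _ (subset_univ _) (by omega), hρ]
      decide
    have e3 : n ρ 4 * 3 = n ρ 3 * 2 := by
      have s := swap_sum (Q := Q) 3 (fun τ => if ρ ⊆ τ then 1 else 0)
      have l : ∑ σ ∈ Q, ∑ e ∈ powersetCard 3 σ, (if ρ ⊆ e then 1 else 0) = n ρ 4 * 3 := by
        rw [← hQ, ← smul_eq_mul, ← sum_const, sum_filter (s := Q)]
        refine sum_congr rfl fun σ hσ => ?_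
        rw [← sum_filter, sum_const, smul_eq_mul, mul_one]
        split_ifs with h
        · rw [card_filter_powersetCard_subset _ _ _ h (by omega), (mem_filter.1 hσ).2.2, hρ]
          decide
        · rw [card_eq_zero, filter_eq_empty_iff]
          intro e he h'
          exact h (h'.trans (mem_powersetCard.1 he).1)
      have r : ∑ e ∈ powersetCard 3 (univ : Finset (Fin 10)),
          (Q.filter (e ⊆ ·)).card * (if ρ ⊆ e then 1 else 0) = n ρ 3 * 2 := by
        have : (univ.filter fun σ => (ρ ⊆ σ ∧ c.Face σ) ∧ σ.card = 3)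
            = (powersetCard 3 univ).filter fun σ => ρ ⊆ σ ∧ c.Face σ := by
          ext σ
          simp only [mem_filter, mem_univ, true_and, mem_powersetCard, subset_univ]
          tauto
        simp only [n]
        rw [this, ← smul_eq_mul (_ : ℕ) 2, ← sum_const, sum_filter]
        refine sum_congr rfl fun e he => ?_
        by_cases h1 : ρ ⊆ e
        · by_cases h2 : c.Face e
          · rw [hQ, h3 e h2 (mem_powersetCard.1 he).2]; simp [h1, h2]
          · have : (Q.filter (e ⊆ ·)).card = 0 := by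
              rw [card_eq_zero, filter_eq_empty_iff]
              intro σ hσ h'
              exact h2 (c.face_mono (mem_filter.1 hσ).2.1 h')
            simp [this, h2]
        · simp [h1]
      rw [← l, ← r, s]
    rw [hlt ρ 0 (by omega), b, e2] at a
    rw [hQ]
    omega
  · rw [hQ]
    exact h3 ρ (c.face_mono (mem_filter.1 hσ).2.1 hρ) hc

end Vale.Agent.P052
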