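import Vale.Agent.P052.NullLag

/-! Signed counts of regular zeros and their invariance. -/

namespace Vale.Agent.P052

open MeasureTheory Set Filter Topology

variable {n : ℕ}

/-- The sign of a nonzero real as an integer. -/
noncomputable def sgn (r : ℝ) : ℤ := if 0 < r then 1 else -1

theorem sgn_mul {a b : ℝ} (ha : a ≠ 0) (hb : b ≠ 0) : sgn (a * b) = sgn a * sgn b := by
  unfold sgn
  rcases lt_or_gt_of_ne ha with h | h <;> rcases lt_or_gt_of_ne hb with h' | h'
  · simp [mul_pos_of_neg_of_neg h h', not_lt.2 h.le, not_lt.2 h'.le]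
  · simp [not_lt.2 (mul_neg_of_neg_of_pos h h').le, not_lt.2 h.le, h']
  · simp [not_lt.2 (mul_neg_of_pos_of_neg h h').le, not_lt.2 h'.le, h]
  · simp [mul_pos h h', h, h']

theorem sgn_eq_or (a : ℝ) : sgn a = 1 ∨ sgn a = -1 := by
  unfold sgn; split_ifs <;> simp

theorem abs_eq_sgn_mul (a : ℝ) : |a| = (sgn a : ℝ) * a := by
  unfold sgn; split_ifs with h
  · simp [abs_of_pos h]
  · simp [abs_of_nonpos (not_lt.1 h)]

theorem sgn_mul_abs (a : ℝ) : (sgn a : ℝ) * |a| = a := by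
  rw [abs_eq_sgn_mul]
  rcases sgn_eq_or a with h | h <;> simp [h]

/-- Zeros of `g` in `V`. -/
def zs (g : Sp n → Sp n) (V : Set (Sp n)) : Set (Sp n) := {x | x ∈ V ∧ g x = 0}

/-- All zeros in `V` are regular. -/
def IsReg (g : Sp n → Sp n) (V : Set (Sp n)) : Prop := ∀ x ∈ V, g x = 0 → jac g x ≠ 0

/-- Signed number of zeros. -/
noncomputable def cnt (g : Sp n → Sp n) (V : Set (Sp n)) : ℤ :=
  ∑ᶠ (x) (_ : x ∈ zs g V), sgn (jac g x)

theorem local_struct {g : Sp n → Sp n} (hg : ContDiff ℝ 1 g) {p : Sp n} (hp : jac g p ≠ 0) :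
    (∃ W, IsOpen W ∧ p ∈ W ∧ InjOn g W) ∧ map g (𝓝 p) = 𝓝 (g p) := by
  have hp' : (fderiv ℝ g p).det ≠ 0 := hp
  have h1 : HasStrictFDerivAt g
      ((fderiv ℝ g p).toContinuousLinearEquivOfDetNeZero hp' : Sp n →L[ℝ] Sp n) p := by
    rw [ContinuousLinearMap.coe_toContinuousLinearEquivOfDetNeZero]
    exact hg.hasStrictFDerivAt one_ne_zero
  refine ⟨⟨(h1.toOpenPartialHomeomorph g).source, (h1.toOpenPartialHomeomorph g).open_source,
    h1.mem_toOpenPartialHomeomorph_source, ?_⟩, h1.map_nhds_eq_of_equiv⟩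
  exact (h1.toOpenPartialHomeomorph g).injOn

theorem finite_zs {g : Sp n → Sp n} (hg : ContDiff ℝ 1 g) {t : Set (Sp n)} (ht : IsCompact t)
    (hreg : IsReg g t) : (zs g t).Finite := by
  have hc : IsCompact (zs g t) :=
    ht.inter_right (isClosed_eq hg.continuous continuous_const)
  refine hc.finite (isDiscrete_iff_forall_mem_exists_isOpen.2 fun y hy => ?_)
  obtain ⟨⟨W, hW, hyW, hinj⟩, -⟩ := local_struct hg (hreg y hy.1 hy.2)
  refine ⟨W, hW, ?_⟩
  ext x
  simp only [mem_inter_iff, mem_singleton_iff]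
  constructor
  · rintro ⟨hx, hx'⟩
    exact hinj hx hyW (hx'.2.trans hy.2.symm)
  · rintro rfl; exact ⟨hyW, hy⟩

/-- A continuous function nonvanishing on a compact set is bounded below. -/
theorem exists_margin {X : Type*} [TopologicalSpace X] {F : Type*} [NormedAddCommGroup F]
    {f : X → F} {K : Set X} (hK : IsCompact K) (hf : ContinuousOn f K)
    (h0 : ∀ x ∈ K, f x ≠ 0) : ∃ η > 0, ∀ x ∈ K, η ≤ ‖f x‖ := by
  rcases K.eq_empty_or_nonempty with rfl | hne
  · exact ⟨1, one_pos, by simp⟩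
  obtain ⟨x, hx, hmin⟩ := hK.exists_isMinOn hne hf.norm
  exact ⟨‖f x‖, norm_pos_iff.2 (h0 x hx), fun y hy => hmin hy⟩

theorem integral_eq_cnt {g : Sp n → Sp n} (hg : ContDiff ℝ 1 g) {t : Set (Sp n)}
    (ht : IsCompact t) (hreg : IsReg g t) (hint : zs g t ⊆ interior t) :
    ∃ ε > 0, ∀ ω : Sp n → ℝ, Continuous ω → (∀ y, ε ≤ ‖y‖ → ω y = 0) →
      ∫ x in t, ω (g x) * jac g x = cnt g t * ∫ y, ω y := by
  classical
  have hfin := finite_zs hg ht hreg
  obtain ⟨U, hU, hdisj⟩ := hfin.t2_separation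
  have hloc : ∀ p ∈ zs g t, ∃ W, IsOpen W ∧ p ∈ W ∧ W ⊆ t ∧ W ⊆ U p ∧ InjOn g W ∧
      (∀ x ∈ W, sgn (jac g x) = sgn (jac g p)) ∧ ∃ r > 0, Metric.ball (0 : Sp n) r ⊆ g '' W := by
    intro p hp
    have hp0 := hreg p hp.1 hp.2
    obtain ⟨⟨W0, hW0, hpW0, hinj⟩, hmap⟩ := local_struct hg hp0
    let W1 : Set (Sp n) := {x | 0 < jac g p * jac g x}
    have hW1 : IsOpen W1 := isOpen_lt continuous_const (continuous_const.mul (continuous_jac hg))
    have hpW1 : p ∈ W1 := mul_self_pos.2 hp0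
    refine ⟨W0 ∩ W1 ∩ interior t ∩ U p, ((hW0.inter hW1).inter isOpen_interior).inter (hU p).2,
      ⟨⟨⟨hpW0, hpW1⟩, hint hp⟩, (hU p).1⟩, fun x hx => interior_subset hx.1.2,
      fun x hx => hx.2, hinj.mono fun x hx => hx.1.1.1, fun x hx => ?_, ?_⟩
    · have h1 : 0 < jac g p * jac g x := hx.1.1.2
      unfold sgn
      rcases lt_or_gt_of_ne hp0 with h | h
      · have : jac g x < 0 := by nlinarith
        simp [not_lt.2 h.le, not_lt.2 this.le]
      · have : 0 < jac g x := by nlinarith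
        simp [h, this]
    · have : g '' (W0 ∩ W1 ∩ interior t ∩ U p) ∈ 𝓝 (g p) := by
        rw [← hmap]
        exact image_mem_map ((((hW0.inter hW1).inter isOpen_interior).inter (hU p).2).mem_nhds
          ⟨⟨⟨hpW0, hpW1⟩, hint hp⟩, (hU p).1⟩)
      rw [hp.2] at this
      exact Metric.mem_nhds_iff.1 this
  choose! W hWo hpW hWt hWU hWinj hWsgn r hr hball using hloc
  set s := hfin.toFinset with hs
  have hmem : ∀ p, p ∈ s ↔ p ∈ zs g t := fun p => hfin.mem_toFinset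
  have hWopen : IsOpen (⋃ p ∈ s, W p) := isOpen_biUnion fun p hp => hWo p ((hmem p).1 hp)
  obtain ⟨η, hη, hmar⟩ := exists_margin (f := g) (ht.diff hWopen) hg.continuous.continuousOn
    (fun x hx h0 => hx.2 (mem_biUnion ((hmem x).2 ⟨hx.1, h0⟩) (hpW x ⟨hx.1, h0⟩)))
  obtain ⟨ε, hε, hεη, hεr⟩ : ∃ ε > 0, ε ≤ η ∧ ∀ p ∈ s, ε ≤ r p := by
    have : ∀ᶠ ε in 𝓝[>] (0 : ℝ), ε ≤ η ∧ ∀ p ∈ s, ε ≤ r p := by
      refine Eventually.and ?_ ((eventually_all_finset s).2 fun p hp => ?_)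
      · exact nhdsWithin_le_nhds (Iic_mem_nhds hη)
      · exact nhdsWithin_le_nhds (Iic_mem_nhds (hr p ((hmem p).1 hp)))
    obtain ⟨ε, h1, h2⟩ := (this.and self_mem_nhdsWithin).exists
    exact ⟨ε, h2, h1⟩
  refine ⟨ε, hε, fun ω hω hω0 => ?_⟩
  have hcont : Continuous fun x => ω (g x) * jac g x :=
    (hω.comp hg.continuous).mul (continuous_jac hg)
  have hsub : (⋃ p ∈ s, W p) ⊆ t := iUnion₂_subset fun p hp => hWt p ((hmem p).1 hp)
  rw [setIntegral_eq_of_subset_of_forall_sdiff_eq_zero ht.measurableSet hsub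
    (fun x hx => by rw [hω0 _ (hεη.trans (hmar x hx)), zero_mul])]
  rw [integral_biUnion_finset s (fun p hp => (hWo p ((hmem p).1 hp)).measurableSet)
    (fun p hp q hq hpq => (hdisj ((hmem p).1 hp) ((hmem q).1 hq) hpq).mono
      (hWU p ((hmem p).1 hp)) (hWU q ((hmem q).1 hq)))
    (fun p hp => (hcont.continuousOn.integrableOn_compact ht).mono_set (hWt p ((hmem p).1 hp)))]
  unfold cnt
  rw [finsum_mem_eq_finite_toFinset_sum _ hfin, Int.cast_sum, Finset.sum_mul]
  refine Finset.sum_congr rfl fun p hp => ?_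
  have hp' := (hmem p).1 hp
  have h1 := integral_image_eq_integral_abs_det_fderiv_smul volume (hWo p hp').measurableSet
    (fun x _ => ((hg.differentiable one_ne_zero x).hasFDerivAt).hasFDerivWithinAt)
    (hWinj p hp') ω
  have h2 : ∫ y in g '' W p, ω y = ∫ y, ω y := by
    refine setIntegral_eq_integral_of_forall_compl_eq_zero fun y hy => hω0 y ?_
    by_contra hlt
    exact hy (hball p hp' (by
      rw [mem_ball_zero_iff]; exact (not_le.1 hlt).trans_le (hεr p hp)))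
  rw [← h2, h1, ← integral_const_mul]
  refine setIntegral_congr_fun (hWo p hp').measurableSet fun x hx => ?_
  simp only [smul_eq_mul]
  rw [← hWsgn p hp' x hx, ← mul_assoc]
  have := sgn_mul_abs (jac g x)
  unfold jac at this ⊢
  rw [this, mul_comm]

/-- A map whose Jacobian is a bump function concentrated near the origin. -/
theorem exists_bump (ε : ℝ) (hε : 0 < ε) :
    ∃ (G : Sp n → Sp n) (ω : Sp n → ℝ), ContDiff ℝ 1 G ∧ Continuous ω ∧
      (∀ y, jac G y = ω y) ∧ (∀ y, ε ≤ ‖y‖ → ω y = 0 ∨ n = 0) ∧ 0 < ∫ y, ω y := by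
  let β : ℝ → ℝ := fun s => max 0 (ε - |s|)
  have hβ : Continuous β := by fun_prop
  let B : ℝ → ℝ := fun s => ∫ u in (0 : ℝ)..s, β u
  have hB : ∀ s, HasDerivAt B (β s) s := fun s =>
    intervalIntegral.integral_hasDerivAt_right (hβ.intervalIntegrable _ _)
      (hβ.stronglyMeasurableAtFilter _ _) hβ.continuousAt
  have hBc : ContDiff ℝ 1 B := by
    rw [contDiff_one_iff_deriv]
    refine ⟨fun s => (hB s).differentiableAt, ?_⟩
    have : deriv B = β := funext fun s => (hB s).deriv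
    rw [this]; exact hβ
  let ω : Sp n → ℝ := fun y => ∏ i, β (y i)
  have hω : Continuous ω := by fun_prop
  have hω0 : ∀ y, ε ≤ ‖y‖ → ω y = 0 ∨ n = 0 := by
    intro y hy
    by_cases h : ∃ i, ε ≤ |y i|
    · obtain ⟨i, hi⟩ := h
      left
      refine Finset.prod_eq_zero (Finset.mem_univ i) ?_
      simp only [β]; exact max_eq_left (by linarith)
    · push Not at h
      exfalso
      have : ‖y‖ < ε := (pi_norm_lt_iff hε).2 fun i => by simpa using h i
      linarith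
  refine ⟨fun y i => B (y i), ω, contDiff_pi.2 fun i => hBc.comp (contDiff_apply ℝ ℝ i), hω,
    fun y => ?_, hω0, ?_⟩
  · have h1 : HasFDerivAt (fun (y : Sp n) i => B (y i))
        (ContinuousLinearMap.pi fun i => (ContinuousLinearMap.toSpanSingleton ℝ (β (y i))).comp
          (ContinuousLinearMap.proj (R := ℝ) (φ := fun _ : Fin n => ℝ) i)) y := by
      rw [hasFDerivAt_pi]
      intro i
      have h2 : HasFDerivAt (fun f : Sp n => f i)
          (ContinuousLinearMap.proj (R := ℝ) (φ := fun _ : Fin n => ℝ) i) y :=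
        hasFDerivAt_apply (𝕜 := ℝ) i y
      exact HasFDerivAt.comp (g := B) y (hB (y i)).hasFDerivAt h2
    unfold jac
    rw [h1.fderiv, ContinuousLinearMap.det_pi]
    simp [ω, ContinuousLinearMap.det_toSpanSingleton]
  · refine hω.integral_pos_of_hasCompactSupport_nonneg_nonzero (x := 0) ?_ ?_ ?_
    · refine HasCompactSupport.intro (isCompact_closedBall (0 : Sp n) ε) fun y hy => ?_
      have hy' : ε ≤ ‖y‖ := by
        rw [mem_closedBall_zero_iff] at hy; exact (not_le.1 hy).le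
      rcases hω0 y hy' with h | h
      · exact h
      · subst h
        exfalso
        have : y = 0 := Subsingleton.elim _ _
        rw [this, norm_zero] at hy'; linarith
    · intro y
      exact Finset.prod_nonneg fun i _ => le_max_left _ _
    · refine (Finset.prod_pos fun i _ => ?_).ne'
      simp [β, hε]

theorem jac_comp {f g : Sp n → Sp n} {x : Sp n} (hf : DifferentiableAt ℝ f (g x))
    (hg : DifferentiableAt ℝ g x) : jac (fun y => f (g y)) x = jac f (g x) * jac g x := by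
  unfold jac
  have := fderiv_comp x hf hg
  rw [show (fun y => f (g y)) = f ∘ g from rfl, this]
  exact LinearMap.det_comp (fderiv ℝ f (g x) : Sp n →ₗ[ℝ] Sp n) (fderiv ℝ g x : Sp n →ₗ[ℝ] Sp n)

/-- Invariance of the signed count along a segment that does not vanish on the boundary. -/
theorem cnt_eq_of_segment (hn : 0 < n) {g₀ g₁ : Sp n → Sp n} (h₀ : ContDiff ℝ 1 g₀)
    (h₁ : ContDiff ℝ 1 g₁) {V : Set (Sp n)} (hV : IsOpen V) (hVc : IsCompact (closure V))
    (r₀ : IsReg g₀ V) (r₁ : IsReg g₁ V)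
    (hseg : ∀ x ∈ closure V \ V, ∀ s ∈ Icc (0 : ℝ) 1, (1 - s) • g₀ x + s • g₁ x ≠ 0) :
    cnt g₀ V = cnt g₁ V := by
  set H : Sp n × ℝ → Sp n := fun q => (1 - q.2) • g₀ q.1 + q.2 • g₁ q.1 with hH
  have hHc : Continuous H := by
    have := h₀.continuous; have := h₁.continuous
    fun_prop
  set K : Set (Sp n) := Prod.fst '' ((closure V ×ˢ Icc (0 : ℝ) 1) ∩ H ⁻¹' {0}) with hK
  have hKc : IsCompact K :=
    ((hVc.prod isCompact_Icc).inter_right (isClosed_singleton.preimage hHc)).image continuous_fst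
  have hKmem : ∀ x ∈ closure V, ∀ s ∈ Icc (0 : ℝ) 1, H (x, s) = 0 → x ∈ K :=
    fun x hx s hs h => ⟨(x, s), ⟨⟨hx, hs⟩, h⟩, rfl⟩
  have hKV : K ⊆ V := by
    rintro _ ⟨⟨x, s⟩, ⟨⟨hx, hs⟩, h⟩, rfl⟩
    by_contra hxV
    exact hseg x ⟨hx, hxV⟩ s hs h
  obtain ⟨t, ht, hKt, htV⟩ := exists_compact_between hKc hV hKV
  obtain ⟨χ, hχ, hχ1, hχ0, hχI⟩ := exists_cutoff hKc.isClosed hKt
  obtain ⟨O, hO, hKO, hO1⟩ := mem_nhdsSet_iff_exists.1 hχ1
  have htcl : t ⊆ closure V := htV.trans subset_closure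
  obtain ⟨η, hη, hmar⟩ := exists_margin (f := H) ((ht.diff hO).prod (isCompact_Icc (a := (0 : ℝ))
    (b := 1))) hHc.continuousOn (by
      rintro ⟨x, s⟩ ⟨hx, hs⟩ h
      exact hx.2 (hKO (hKmem x (htcl hx.1) s hs h)))
  have hz₀ : ∀ x ∈ closure V, g₀ x = 0 → x ∈ K := fun x hx h =>
    hKmem x hx 0 (by simp) (by simp [hH, h])
  have hz₁ : ∀ x ∈ closure V, g₁ x = 0 → x ∈ K := fun x hx h =>
    hKmem x hx 1 (by simp) (by simp [hH, h])
  obtain ⟨ε₀, hε₀, e₀⟩ := integral_eq_cnt h₀ ht (fun x hx => r₀ x (htV hx))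
    (fun x hx => hKt (hz₀ x (htcl hx.1) hx.2))
  obtain ⟨ε₁, hε₁, e₁⟩ := integral_eq_cnt h₁ ht (fun x hx => r₁ x (htV hx))
    (fun x hx => hKt (hz₁ x (htcl hx.1) hx.2))
  obtain ⟨G, ω, hG, hω, hjac, hω0', hpos⟩ := exists_bump (n := n) (min η (min ε₀ ε₁))
    (lt_min hη (lt_min hε₀ hε₁))
  have hω0 : ∀ y, min η (min ε₀ ε₁) ≤ ‖y‖ → ω y = 0 := fun y hy =>
    (hω0' y hy).resolve_right hn.ne'
  have e₀' := e₀ ω hω fun y hy => hω0 y (((min_le_right _ _).trans (min_le_left _ _)).trans hy)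
  have e₁' := e₁ ω hω fun y hy => hω0 y (((min_le_right _ _).trans (min_le_right _ _)).trans hy)
  set g : Sp n → Sp n := fun x => H (x, χ x) with hg
  have hgc : ContDiff ℝ 1 g := ((contDiff_const.sub hχ).smul h₀).add (hχ.smul h₁)
  have hjc : ∀ {w : Sp n → Sp n}, ContDiff ℝ 1 w → ∀ x,
      jac (fun y => G (w y)) x = ω (w x) * jac w x := fun hw x => by
    rw [jac_comp (hG.differentiable one_ne_zero _) (hw.differentiable one_ne_zero _), hjac]
  have key := integral_jac_congr hn (u := fun y => G (g₀ y)) (v := fun y => G (g y))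
    (hG.comp h₀) (hG.comp hgc) ht (fun x hx => by simp [hg, hH, hχ0 x hx])
  simp_rw [hjc h₀, hjc hgc] at key
  have key2 : ∫ x in t, ω (g x) * jac g x = ∫ x in t, ω (g₁ x) * jac g₁ x := by
    refine setIntegral_congr_fun ht.measurableSet fun x hx => ?_
    by_cases hxO : x ∈ O
    · have : g =ᶠ[𝓝 x] g₁ := by
        filter_upwards [hO.mem_nhds hxO] with y hy
        have : χ y = 1 := hO1 hy
        simp [hg, hH, this]
      unfold jac
      rw [this.fderiv_eq, this.self_of_nhds]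
    · have a1 : ω (g x) = 0 := hω0 _ ((min_le_left _ _).trans (hmar (x, χ x) ⟨⟨hx, hxO⟩, hχI x⟩))
      have a2 : ω (g₁ x) = 0 := hω0 _ ((min_le_left _ _).trans (by
        simpa [hH] using hmar (x, 1) ⟨⟨hx, hxO⟩, by simp⟩))
      simp [a1, a2]
  rw [key2, e₀', e₁'] at key
  have key3 : cnt g₀ t = cnt g₁ t := by exact_mod_cast mul_right_cancel₀ hpos.ne' key
  have hzs : ∀ w : Sp n → Sp n, (∀ x ∈ closure V, w x = 0 → x ∈ K) → zs w V = zs w t := by
    intro w hw
    ext x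
    exact ⟨fun h => ⟨interior_subset (hKt (hw x (subset_closure h.1) h.2)), h.2⟩,
      fun h => ⟨htV h.1, h.2⟩⟩
  unfold cnt at key3 ⊢
  rw [hzs g₀ hz₀, hzs g₁ hz₁, key3]

end Vale.Agent.P052
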