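import Vale.Agent.P052.Chart

/-! Preparations for the Dehn-Sommerville relations. -/

namespace Vale.Agent.P052

open Matrix Set Filter Topology

/-- First basis vector. -/
def e1 : V4 := ![1, 0, 0, 0]

/-- Sign vector of a set of colours. -/
def wv (σ : Finset (Fin 10)) : Sp 10 := fun j => if j ∈ σ then 1 else -1

/-- Sign change outside a set of coordinates. -/
noncomputable def flip (σ : Finset (Fin 10)) : Sp 10 →L[ℝ] Sp 10 :=
  ContinuousLinearMap.pi fun i => (ContinuousLinearMap.toSpanSingleton ℝ (wv σ i)).comp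
    (ContinuousLinearMap.proj (R := ℝ) (φ := fun _ : Fin 10 => ℝ) i)

theorem flip_apply (σ : Finset (Fin 10)) (v : Sp 10) (i : Fin 10) :
    flip σ v i = if i ∈ σ then v i else -v i := by
  simp only [flip, ContinuousLinearMap.pi_apply, ContinuousLinearMap.comp_apply,
    ContinuousLinearMap.proj_apply, ContinuousLinearMap.toSpanSingleton_apply, wv]
  split_ifs <;> simp

theorem norm_flip (σ : Finset (Fin 10)) (v : Sp 10) : ‖flip σ v‖ = ‖v‖ := by
  simp only [Pi.norm_def]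
  congr 2
  ext i
  rw [flip_apply]
  split_ifs <;> simp

theorem flip_flip (σ : Finset (Fin 10)) (v : Sp 10) : flip σ (flip σ v) = v := by
  ext i
  rw [flip_apply, flip_apply]
  split_ifs <;> simp

theorem det_flip (σ : Finset (Fin 10)) : (flip σ).det = (-1) ^ (σᶜ).card := by
  unfold flip
  rw [ContinuousLinearMap.det_pi]
  simp only [ContinuousLinearMap.det_toSpanSingleton, wv]
  rw [Finset.prod_ite]
  simp only [Finset.prod_const_one, Finset.prod_const, one_mul]
  congr 2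
  ext i; simp

theorem sgn_det_flip (σ : Finset (Fin 10)) : sgn (flip σ).det = (-1) ^ (σᶜ).card := by
  rw [det_flip]
  rcases neg_one_pow_eq_or ℝ (σᶜ).card with h | h
  · have : Even (σᶜ).card := (neg_one_pow_eq_one_iff_even (by norm_num)).1 h
    rw [h, this.neg_one_pow]; simp [sgn]
  · have : Odd (σᶜ).card := by
      by_contra hne
      rw [(Nat.not_odd_iff_even.1 hne).neg_one_pow] at h
      norm_num at h
    rw [h, this.neg_one_pow]; simp [sgn]

theorem norm_wv_le (σ : Finset (Fin 10)) : ‖wv σ‖ ≤ 1 := by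
  rw [pi_norm_le_iff_of_nonneg zero_le_one]
  intro i
  unfold wv; split_ifs <;> simp

theorem wv_ne_zero (σ : Finset (Fin 10)) (j : Fin 10) : wv σ j ≠ 0 := by
  unfold wv; split_ifs <;> simp

theorem wv_pos {σ : Finset (Fin 10)} {j : Fin 10} (h : 0 < wv σ j) : j ∈ σ := by
  unfold wv at h; split_ifs at h with h1
  · exact h1
  · linarith

/-- The reflection of the lower block. -/
noncomputable def Rf : Sp 10 →L[ℝ] Sp 10 := flip {0, 1, 2, 3}

theorem R1_Rf (z : Sp 10) : R1 (Rf z) = R1 z := by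
  ext i j
  fin_cases i <;> fin_cases j <;> simp [R1, xv, Rf, flip_apply]

theorem Bm_Rf (z : Sp 10) : Bm (Rf z) = -Bm z := by
  ext i j
  fin_cases i <;> fin_cases j <;> simp [Bm, Rf, flip_apply] <;> ring

theorem sgn_det_Rf : Rf.det ≠ 0 ∧ sgn Rf.det = 1 := by
  unfold Rf
  refine ⟨by rw [det_flip]; simp, ?_⟩
  rw [sgn_det_flip]; decide

theorem eq_zero_of_mulVec {P : M4} (h : ∀ u, P *ᵥ u = 0) : P = 0 := by
  ext i j
  simpa using congrFun (h (Pi.single j 1)) i

theorem dec_psd {P : M4} (h : P.PosSemidef) : Dec P P 0 :=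
  ⟨h, PosSemidef.zero, by simp, by simp⟩

namespace Col

variable (c : Col)

/-- A set of colours is a face if some vector carries all of them. -/
def Face (σ : Finset (Fin 10)) : Prop := ∃ x : V4, ∀ j ∈ σ, 0 < c.Φ j x

/-- The odd map in coordinates. -/
noncomputable def FM (z : Sp 10) : Sp 10 := c.F (mat z)

theorem continuous_FM : Continuous c.FM := c.continuous_F continuous_mat mat_symm

theorem exists_bound_FM : ∃ C > 0, ∀ z, ‖z‖ ≤ C * ‖c.FM z‖ := by
  obtain ⟨C, hC, h⟩ := c.exists_bound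
  exact ⟨C, hC, fun z => norm_le_of_mat (by positivity) (h _ (mat_symm z))⟩

theorem compact_zs_FM (v : Sp 10) : IsCompact (zs (fun z => c.FM z - v) univ) := by
  obtain ⟨C, hC, h⟩ := c.exists_bound_FM
  refine (isCompact_closedBall (0 : Sp 10) (C * ‖v‖)).of_isClosed_subset ?_ fun z hz => ?_
  · have : zs (fun z => c.FM z - v) univ = {z | c.FM z - v = 0} := by ext z; simp [zs]
    rw [this]
    exact isClosed_eq (c.continuous_FM.sub continuous_const) continuous_const
  · rw [mem_closedBall_zero_iff, ← sub_eq_zero.1 hz.2]; exact h z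

theorem exists_deg_FM : ∃ δ : ℤ, δ ≠ 0 ∧ ∀ v, deg (fun z => c.FM z - v) univ = δ := by
  obtain ⟨C, hC, h⟩ := c.exists_bound_FM
  refine ⟨deg c.FM univ, deg_odd_ne_zero (by norm_num) c.continuous_FM (fun z => ?_) fun z hz => ?_,
    fun v => ?_⟩
  · unfold FM; rw [mat_neg, c.F_neg]
  · have := h z
    rw [hz, norm_zero, mul_zero] at this
    exact norm_le_zero_iff.1 this
  · symm
    refine deg_segment (f₁ := fun z => c.FM z - v) (by norm_num) c.continuous_FM
      (c.continuous_FM.sub continuous_const)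
      isOpen_univ (isCompact_closedBall (0 : Sp 10) (C * ‖v‖)) (subset_univ _) fun z _ s hs h0 => ?_
    have h1 : c.FM z = s • v := by
      rw [smul_sub, ← add_sub_assoc, ← add_smul, sub_add_cancel, one_smul, sub_eq_zero] at h0
      exact h0
    rw [mem_closedBall_zero_iff]
    refine (h z).trans (mul_le_mul_of_nonneg_left ?_ hC.le)
    rw [h1, norm_smul, Real.norm_of_nonneg hs.1]
    exact mul_le_of_le_one_left (norm_nonneg _) hs.2

theorem surj_FM (v : Sp 10) : ∃ z, c.FM z = v := by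
  obtain ⟨δ, hδ, h⟩ := c.exists_deg_FM
  by_contra hne
  push Not at hne
  exact hδ ((h v).symm.trans (deg_eq_zero (by norm_num) (c.continuous_FM.sub continuous_const)
    fun z _ h0 => hne z (sub_eq_zero.1 h0)))

/-- Colours of the rank one part. -/
noncomputable def av (z : Sp 10) : Sp 10 := c.F (R1 z)

/-- Colours of the complementary part. -/
noncomputable def Gv (z : Sp 10) : Sp 10 := c.F (Bm z)

/-- The split map. -/
noncomputable def Ψ (z : Sp 10) : Sp 10 := c.av z + c.Gv z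

theorem continuous_av : Continuous c.av := c.continuous_F continuous_R1 R1_symm
theorem continuous_Gv : Continuous c.Gv := c.continuous_F continuous_Bm Bm_symm
theorem continuous_Ψ : Continuous c.Ψ := c.continuous_av.add c.continuous_Gv

theorem av_Rf (z : Sp 10) : c.av (Rf z) = c.av z := by unfold av; rw [R1_Rf]
theorem Gv_Rf (z : Sp 10) : c.Gv (Rf z) = -c.Gv z := by unfold Gv; rw [Bm_Rf, c.F_neg]

theorem av_nonneg {z : Sp 10} (h : 0 ≤ z 0) (i : Fin 10) : 0 ≤ c.av z i := by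
  unfold av
  rw [c.F_dec (dec_psd (R1_psd h)), c.fv_zero, sub_zero]
  exact c.fv_nonneg _ _

theorem av_pos {z : Sp 10} {i : Fin 10} (h : 0 < c.av z i) : 0 < z 0 ∧ 0 < c.Φ i (xv z) := by
  have h0 : 0 < z 0 := by
    by_contra hne
    have hd := (dec_psd (neg_R1_psd (not_lt.1 hne))).neg
    rw [neg_neg] at hd
    obtain ⟨u, hu⟩ := (c.F_pos_iff hd).1 h
    rw [zero_mulVec, c.zero] at hu
    exact lt_irrefl _ hu
  refine ⟨h0, ?_⟩
  obtain ⟨u, hu⟩ := (c.F_pos_iff (dec_psd (R1_psd h0.le))).1 h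
  rw [R1_mulVec] at hu
  exact c.pos_of_smul hu

theorem Gv_eq_zero {z : Sp 10} {i : Fin 10} (h : 0 < c.av z i) : c.Gv z i = 0 :=
  c.F_eq_zero_of_ker (Bm_symm z) (Bm_xv z) (c.av_pos h).2

theorem FM_prm {z : Sp 10} (h0 : 0 ≤ z 0) (h : (-Bm z).PosSemidef) : c.FM (prm z) = c.Ψ z := by
  ext i
  have hd := (dec_psd h).neg
  rw [neg_neg] at hd
  simp only [FM, Ψ, av, Gv, Pi.add_apply]
  rw [c.F_dec (dec_prm h0 h), c.F_dec (dec_psd (R1_psd h0)), c.F_dec hd, c.fv_zero]
  ring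

theorem mem_Dm {z : Sp 10} (h0 : 0 < z 0) (h : (-Bm z).PosSemidef)
    (hF : ∀ j, c.FM (prm z) j ≠ 0) : z ∈ Dm := by
  refine ⟨h0, fun q hq => ?_⟩
  let v : V4 := ![0, q 0, q 1, q 2]
  have h1 : v ⬝ᵥ Bm z *ᵥ v = qb z q := by
    rw [Bm_form]
    congr 1
    ext i; fin_cases i <;> simp [v]
  have h2 := psd_nonneg h v
  rw [neg_mulVec, dotProduct_neg, h1] at h2
  by_contra hne
  have h3 : qb z q = 0 := le_antisymm (by linarith) (not_lt.1 hne)
  have h4 : Bm z *ᵥ v = 0 := by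
    have := psd_ker h (v := v) (by rw [neg_mulVec, dotProduct_neg, h1, h3, neg_zero])
    rwa [neg_mulVec, neg_eq_zero] at this
  have hx := xv_dot_pos z
  set t := (xv z ⬝ᵥ v) / (xv z ⬝ᵥ xv z) with ht
  have h5 : mat (prm z) *ᵥ (v - t • xv z) = 0 := by
    rw [mat_prm, add_mulVec, R1_mulVec, mulVec_sub, mulVec_smul, h4, Bm_xv, dotProduct_sub,
      dotProduct_smul, smul_eq_mul, ht, div_mul_cancel₀ _ hx.ne']
    simp
  have h6 := c.ker_eq_zero (mat_symm _) hF h5
  have h7 : t = 0 := by simpa [v, xv] using congrFun h6 0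
  rw [h7, zero_smul, sub_zero] at h6
  apply hq
  ext i
  fin_cases i
  exacts [congrFun h6 1, congrFun h6 2, congrFun h6 3]

theorem neg_Bm_psd_of {z : Sp 10} (h : ∀ j, c.Gv z j ≤ 0) : (-Bm z).PosSemidef := by
  have hd := dec_pos (Bm_symm z)
  have h1 : pos (Bm z) = 0 := by
    refine eq_zero_of_mulVec fun u => ?_
    by_contra hne
    obtain ⟨j, hj⟩ := c.cover _ hne
    exact absurd ((c.F_pos_iff hd).2 ⟨u, hj⟩) (not_lt.2 (h j))
  have h2 := hd.eq
  rw [h1, zero_sub] at h2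
  rw [h2, neg_neg]
  exact hd.hN

theorem mem_image_prm {i₀ : Fin 10} (h0 : 0 < c.Φ i₀ e1) {σ : Finset (Fin 10)} (hi : i₀ ∈ σ)
    (hσ : c.Face σ) {z' : Sp 10} (hz : c.FM z' = wv σ) : z' ∈ prm '' Dm := by
  obtain ⟨P, N, hd⟩ := exists_dec (mat_symm z')
  obtain ⟨y, hy⟩ := hσ
  have hF : ∀ j, c.F (mat z') j = wv σ j := fun j => congrFun hz j
  obtain ⟨u₀, hu₀⟩ := (c.F_pos_iff hd (i := i₀)).1 (by rw [hF]; simp [wv, hi])
  set v₀ := P *ᵥ u₀ with hv₀
  have hv0 : v₀ 0 ≠ 0 := by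
    have := c.noorth i₀ _ _ hu₀ h0
    simpa [e1, dotProduct, Fin.sum_univ_four] using this
  have hvy : v₀ ⬝ᵥ y ≠ 0 := c.noorth i₀ _ _ hu₀ (hy i₀ hi)
  have hpar : ∀ u, ∃ t : ℝ, P *ᵥ u = t • v₀ := by
    intro u
    refine ⟨(P *ᵥ u) ⬝ᵥ y / (v₀ ⬝ᵥ y), ?_⟩
    set t := (P *ᵥ u) ⬝ᵥ y / (v₀ ⬝ᵥ y) with ht
    have h1 : P *ᵥ (u - t • u₀) = P *ᵥ u - t • v₀ := by rw [mulVec_sub, mulVec_smul]
    by_contra hne
    obtain ⟨j, hj⟩ := c.cover _ (sub_ne_zero.2 hne)
    have h2 : j ∈ σ := wv_pos (by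
      rw [← hF]; exact (c.F_pos_iff hd).2 ⟨u - t • u₀, by rw [h1]; exact hj⟩)
    refine c.noorth j _ _ hj (hy j h2) ?_
    rw [sub_dotProduct, smul_dotProduct, smul_eq_mul, ht, div_mul_cancel₀ _ hvy, sub_self]
  have hcol : ∀ i k, P i k * v₀ 0 = P 0 k * v₀ i := by
    intro i k
    obtain ⟨t, ht⟩ := hpar (Pi.single k 1)
    have a := congrFun ht i
    have b := congrFun ht 0
    simp only [mulVec_single_one, col_apply, Pi.smul_apply, smul_eq_mul] at a b
    rw [a, b]; ring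
  have hPs : ∀ i k, P k i = P i k := fun i k => congrFun (congrFun (psd_symm hd.hP) i) k
  have hNs : ∀ i k, N k i = N i k := fun i k => congrFun (congrFun (psd_symm hd.hN) i) k
  have hP00 : P 0 0 ≠ 0 := by
    intro h
    have h1 : ∀ k, P 0 k = 0 := fun k => by
      have := hcol k 0
      rw [h, zero_mul, hPs] at this
      exact (mul_eq_zero.1 this).resolve_right hv0
    apply hv0
    simp [hv₀, mulVec, dotProduct, h1]
  have hP00' : 0 < P 0 0 := by
    refine lt_of_le_of_ne ?_ hP00.symm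
    simpa using psd_nonneg hd.hP (Pi.single 0 1)
  let z : Sp 10 := ![P 0 0, v₀ 1 / v₀ 0, v₀ 2 / v₀ 0, v₀ 3 / v₀ 0, -N 1 1, -N 1 2, -N 1 3, -N 2 2,
    -N 2 3, -N 3 3]
  have hx : ∀ i, xv z i = v₀ i / v₀ 0 := by
    intro i; fin_cases i <;> simp [xv, z, hv0]
  have hR : R1 z = P := by
    ext i k
    simp only [R1, of_apply, hx]
    have a := hcol i k
    have b := hcol k 0
    rw [hPs 0 k] at b
    have : z 0 = P 0 0 := rfl
    rw [this]
    field_simp
    linear_combination (-(v₀ 0)) * a - v₀ i * b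
  have hNv : N *ᵥ v₀ = 0 := by rw [hv₀, mulVec_mulVec, hd.neg.mul, zero_mulVec]
  have hN : ∀ i, N i 0 = -(N i 1 * (v₀ 1 / v₀ 0) + N i 2 * (v₀ 2 / v₀ 0)
      + N i 3 * (v₀ 3 / v₀ 0)) := by
    intro i
    have := congrFun hNv i
    simp only [mulVec, dotProduct, Fin.sum_univ_four, Pi.zero_apply] at this
    field_simp
    linarith
  have hB : Bm z = -N := by
    have n0 := hN 0
    have n1 := hN 1
    have n2 := hN 2
    have n3 := hN 3
    rw [hNs 1 0, hNs 2 0, hNs 3 0] at n0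
    rw [hNs 1 2] at n2
    rw [hNs 1 3, hNs 2 3] at n3
    ext i k
    fin_cases i <;> fin_cases k <;>
      simp [Bm, z, hNs 1 0, hNs 2 0, hNs 3 0, hNs 1 2, hNs 1 3, hNs 2 3, n0, n1, n2, n3] <;> ring
  have hmat : prm z = z' := by
    rw [← unmat_mat (prm z), mat_prm, hR, hB, ← sub_eq_add_neg, ← hd.eq, unmat_mat]
  refine ⟨z, c.mem_Dm hP00' (by rw [hB, neg_neg]; exact hd.hN) fun j => ?_, hmat⟩
  rw [hmat, hz]; exact wv_ne_zero σ j

end Col

end Vale.Agent.P052
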