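import Vale.Agent.P052.DS1

/-! The Dehn-Sommerville relations for the complex of colours. -/

namespace Vale.Agent.P052

open Matrix Set Filter Topology

namespace Col

variable (c : Col)

/-- Region where the colours of `τ` come from the rank one part. -/
def Nr (τ : Finset (Fin 10)) : Set (Sp 10) := {z | ∀ i ∈ τ, 0 < c.av z i}

/-- Region with positive complementary part. -/
def Op (σ : Finset (Fin 10)) : Set (Sp 10) :=
  {z | (∀ i ∈ σ, 0 < c.av z i) ∧ ∀ i, i ∉ σ → 0 < c.Gv z i}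

/-- Region with negative complementary part. -/
def Om (σ : Finset (Fin 10)) : Set (Sp 10) :=
  {z | (∀ i ∈ σ, 0 < c.av z i) ∧ ∀ i, i ∉ σ → c.Gv z i < 0}

/-- A compact set containing all relevant zeros. -/
def Kr (τ : Finset (Fin 10)) : Set (Sp 10) := {z | (∀ i ∈ τ, c.av z i = 1) ∧ ‖c.Ψ z‖ ≤ 1}

theorem isOpen_forall {p : Fin 10 → Prop} {s : Fin 10 → Set (Sp 10)} (h : ∀ i, IsOpen (s i)) :
    IsOpen {z | ∀ i, p i → z ∈ s i} := by
  have : {z | ∀ i, p i → z ∈ s i} = ⋂ i, {z | p i → z ∈ s i} := by ext z; simp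
  rw [this]
  refine isOpen_iInter_of_finite fun i => ?_
  by_cases hp : p i
  · simpa [hp] using h i
  · simp [hp]

theorem isOpen_Nr (τ : Finset (Fin 10)) : IsOpen (c.Nr τ) :=
  isOpen_forall (s := fun i => {z | 0 < c.av z i}) fun i =>
    isOpen_lt continuous_const ((continuous_apply i).comp c.continuous_av)

theorem isOpen_Op (σ : Finset (Fin 10)) : IsOpen (c.Op σ) :=
  (c.isOpen_Nr σ).inter (isOpen_forall (s := fun i => {z | 0 < c.Gv z i}) fun i =>
    isOpen_lt continuous_const ((continuous_apply i).comp c.continuous_Gv))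

theorem isOpen_Om (σ : Finset (Fin 10)) : IsOpen (c.Om σ) :=
  (c.isOpen_Nr σ).inter (isOpen_forall (s := fun i => {z | c.Gv z i < 0}) fun i =>
    isOpen_lt ((continuous_apply i).comp c.continuous_Gv) continuous_const)

theorem isCompact_Kr {i₀ : Fin 10} (h0 : 0 < c.Φ i₀ e1) {τ : Finset (Fin 10)} (hi : i₀ ∈ τ) :
    IsCompact (c.Kr τ) := by
  obtain ⟨C, hC, hb⟩ := c.exists_bound
  let T : Set (Sp 10) := Metric.closedBall 0 C ∩ {y | c.FM y i₀ = 1 ∧ y 1 ^ 2 = y 0 * y 4 ∧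
    y 2 ^ 2 = y 0 * y 7 ∧ y 3 ^ 2 = y 0 * y 9}
  have hT : IsCompact T := by
    refine (isCompact_closedBall _ _).inter_right ?_
    have := c.continuous_FM
    exact (isClosed_eq (by fun_prop) continuous_const).inter
      ((isClosed_eq (by fun_prop) (by fun_prop)).inter
        ((isClosed_eq (by fun_prop) (by fun_prop)).inter (isClosed_eq (by fun_prop) (by fun_prop))))
  obtain ⟨κ, hκ, hmar⟩ := exists_margin (f := fun y : Sp 10 => y 0) hT
    (continuous_apply 0).continuousOn (by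
      rintro y ⟨-, h1, h2, h3, h4⟩ hy
      have hy' : y 0 = 0 := hy
      rw [hy', zero_mul, pow_eq_zero_iff two_ne_zero] at h2 h3 h4
      have h5 : mat y *ᵥ e1 = 0 := by
        ext i; fin_cases i <;> simp [mat, e1, mulVec, dotProduct, Fin.sum_univ_four, *]
      have h6 : c.FM y i₀ = 0 := c.F_eq_zero_of_ker (mat_symm y) h5 h0
      rw [h1] at h6; exact one_ne_zero h6)
  refine (isCompact_closedBall (0 : Sp 10) (C + C / κ)).of_isClosed_subset ?_ fun z hz => ?_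
  · have : c.Kr τ = (⋂ i ∈ τ, {z | c.av z i = 1}) ∩ {z | ‖c.Ψ z‖ ≤ 1} := by
      ext z; simp [Kr]
    rw [this]
    exact (isClosed_biInter fun i _ => isClosed_eq ((continuous_apply i).comp c.continuous_av)
      continuous_const).inter (isClosed_le c.continuous_Ψ.norm continuous_const)
  have hz0 : 0 < z 0 := (c.av_pos (i := i₀) (by rw [hz.1 i₀ hi]; exact one_pos)).1
  have hco : ∀ j, |c.av z j| ≤ 1 ∧ |c.Gv z j| ≤ 1 := by
    intro j
    have h1 : |c.av z j + c.Gv z j| ≤ 1 := (norm_le_pi_norm (c.Ψ z) j).trans hz.2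
    rcases eq_or_lt_of_le (c.av_nonneg hz0.le j) with h | h
    · rw [← h] at h1 ⊢; simpa using h1
    · rw [c.Gv_eq_zero h] at h1 ⊢; simpa using h1
  have ha : ‖c.F (R1 z)‖ ≤ 1 := (pi_norm_le_iff_of_nonneg zero_le_one).2 fun j => (hco j).1
  have hg : ‖c.F (Bm z)‖ ≤ 1 := (pi_norm_le_iff_of_nonneg zero_le_one).2 fun j => (hco j).2
  have hR : ∀ j k, |R1 z j k| ≤ C := fun j k =>
    (hb _ (R1_symm z) j k).trans (mul_le_of_le_one_right hC.le ha)
  have hB : ∀ j k, |Bm z j k| ≤ C := fun j k =>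
    (hb _ (Bm_symm z) j k).trans (mul_le_of_le_one_right hC.le hg)
  have hmem : unmat (R1 z) ∈ T := by
    refine ⟨mem_closedBall_zero_iff.2 (norm_le_of_mat hC.le ?_), ?_, ?_, ?_, ?_⟩
    · rw [mat_unmat (R1_symm z)]; exact hR
    · unfold FM; rw [mat_unmat (R1_symm z)]; exact hz.1 i₀ hi
    all_goals simp [unmat, R1, xv]; ring
  have hκz : κ ≤ z 0 := by
    have := hmar _ hmem
    simpa [unmat, R1, xv, abs_of_pos hz0] using this
  have hCκ : 0 ≤ C / κ := by positivity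
  have hy : ∀ t : ℝ, |z 0 * t| ≤ C → |t| ≤ C + C / κ := by
    intro t ht
    rw [abs_mul, abs_of_pos hz0] at ht
    have : |t| ≤ C / κ := by
      rw [le_div_iff₀ hκ]
      nlinarith [abs_nonneg t]
    linarith
  have hb' : ∀ t : ℝ, |t| ≤ C → |t| ≤ C + C / κ := fun t ht => by linarith
  rw [mem_closedBall_zero_iff, pi_norm_le_iff_of_nonneg (by positivity)]
  intro i
  fin_cases i
  exacts [hb' _ (by simpa [R1, xv] using hR 0 0), hy _ (by simpa [R1, xv] using hR 0 1),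
    hy _ (by simpa [R1, xv] using hR 0 2), hy _ (by simpa [R1, xv] using hR 0 3),
    hb' _ (hB 1 1), hb' _ (hB 1 2), hb' _ (hB 1 3), hb' _ (hB 2 2), hb' _ (hB 2 3), hb' _ (hB 3 3)]

theorem mem_Kr {τ : Finset (Fin 10)} {z : Sp 10} (hz : z ∈ c.Nr τ)
    (h1 : ∀ i ∈ τ, c.Ψ z i = 1) (h2 : ‖c.Ψ z‖ ≤ 1) : z ∈ c.Kr τ := by
  refine ⟨fun i hi => ?_, h2⟩
  have := h1 i hi
  simp only [Ψ, Pi.add_apply] at this
  rwa [c.Gv_eq_zero (hz i hi), add_zero] at this

theorem Kr_subset (τ : Finset (Fin 10)) : c.Kr τ ⊆ c.Nr τ := fun z hz i hi => by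
  rw [hz.1 i hi]; exact one_pos

theorem compact_zs_Nr {i₀ : Fin 10} (h0 : 0 < c.Φ i₀ e1) {τ : Finset (Fin 10)} (hi : i₀ ∈ τ)
    {v : Sp 10} (h1 : ∀ i ∈ τ, v i = 1) (h2 : ‖v‖ ≤ 1) :
    IsCompact (zs (fun z => c.Ψ z - v) (c.Nr τ)) := by
  have : zs (fun z => c.Ψ z - v) (c.Nr τ) = c.Kr τ ∩ {z | c.Ψ z - v = 0} := by
    ext z
    refine ⟨fun h => ⟨c.mem_Kr h.1 ?_ ?_, h.2⟩, fun h => ⟨c.Kr_subset τ h.1, h.2⟩⟩
    · rw [sub_eq_zero.1 h.2]; exact h1
    · rw [sub_eq_zero.1 h.2]; exact h2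
  rw [this]
  exact (c.isCompact_Kr h0 hi).inter_right
    (isClosed_eq (c.continuous_Ψ.sub continuous_const) continuous_const)

theorem mem_Om {i₀ : Fin 10} {σ : Finset (Fin 10)} (hi : i₀ ∈ σ) {z : Sp 10} (hz : z ∈ c.Nr σ)
    (h : c.Ψ z - wv σ = 0) : z ∈ c.Om σ := by
  refine ⟨hz, fun j hj => ?_⟩
  have h1 := congrFun (sub_eq_zero.1 h) j
  simp only [Ψ, Pi.add_apply, wv, if_neg hj] at h1
  linarith [c.av_nonneg (c.av_pos (hz i₀ hi)).1.le j]

theorem Om_psd {σ : Finset (Fin 10)} {z : Sp 10} (hz : z ∈ c.Om σ) : (-Bm z).PosSemidef := by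
  refine c.neg_Bm_psd_of fun j => ?_
  by_cases hj : j ∈ σ
  · exact (c.Gv_eq_zero (hz.1 j hj)).le
  · exact (hz.2 j hj).le

theorem Gv_nonpos {z : Sp 10} (h : (-Bm z).PosSemidef) (j : Fin 10) : c.Gv z j ≤ 0 := by
  have hd := (dec_psd h).neg
  rw [neg_neg] at hd
  unfold Gv
  rw [c.F_dec hd, c.fv_zero]
  linarith [c.fv_nonneg j (-Bm z)]

theorem compact_zs_Om {i₀ : Fin 10} (h0 : 0 < c.Φ i₀ e1) {σ : Finset (Fin 10)} (hi : i₀ ∈ σ) :
    IsCompact (zs (fun z => c.Ψ z - wv σ) (c.Om σ)) := by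
  have : zs (fun z => c.Ψ z - wv σ) (c.Om σ) = zs (fun z => c.Ψ z - wv σ) (c.Nr σ) := by
    ext z
    exact ⟨fun h => ⟨h.1.1, h.2⟩, fun h => ⟨c.mem_Om hi h.1 h.2, h.2⟩⟩
  rw [this]
  exact c.compact_zs_Nr h0 hi (fun i hi => by simp [wv, hi]) (norm_wv_le σ)

theorem deg_Om_face {i₀ : Fin 10} (h0 : 0 < c.Φ i₀ e1) {σ : Finset (Fin 10)} (hi : i₀ ∈ σ)
    (hσ : c.Face σ) {ε δ : ℤ} (hε : ∀ z ∈ Dm, jac prm z ≠ 0 ∧ sgn (jac prm z) = ε)
    (hδ : ∀ v, deg (fun z => c.FM z - v) univ = δ) :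
    deg (fun z => c.Ψ z - wv σ) (c.Om σ) = ε * δ := by
  have hn : 0 < 10 := by norm_num
  have hc := c.compact_zs_Om h0 hi
  have hcont : Continuous fun z => c.Ψ z - wv σ := c.continuous_Ψ.sub continuous_const
  have hcont' : Continuous fun z => c.FM (prm z) - wv σ :=
    (c.continuous_FM.comp contDiff_prm.continuous).sub continuous_const
  have hD : ∀ z ∈ c.Om σ, c.Ψ z - wv σ = 0 → z ∈ Dm := by
    intro z hz h
    have hz0 := (c.av_pos (hz.1 i₀ hi)).1
    refine c.mem_Dm hz0 (c.Om_psd hz) fun j => ?_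
    rw [c.FM_prm hz0.le (c.Om_psd hz), sub_eq_zero.1 h]
    exact wv_ne_zero σ j
  have heq : ∀ z ∈ Dm, c.FM (prm z) = c.Ψ z := fun z hz =>
    c.FM_prm hz.1.le (neg_Bm_psd (Dm.le hz))
  have hO : ∀ z ∈ Dm, c.FM (prm z) - wv σ = 0 → z ∈ c.Om σ := by
    intro z hz h
    rw [heq z hz] at h
    refine c.mem_Om hi (fun j hj => ?_) h
    have h1 := congrFun (sub_eq_zero.1 h) j
    simp only [Ψ, Pi.add_apply, wv, if_pos hj] at h1
    linarith [c.Gv_nonpos (neg_Bm_psd (Dm.le hz)) j]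
  have hzs : zs (fun z => c.FM (prm z) - wv σ) Dm = zs (fun z => c.Ψ z - wv σ) (c.Om σ) := by
    ext z
    constructor
    · intro h
      exact ⟨hO z h.1 h.2, by beta_reduce; rw [← heq z h.1]; exact h.2⟩
    · intro h
      exact ⟨hD z h.1 h.2, by beta_reduce; rw [heq z (hD z h.1 h.2)]; exact h.2⟩
  have hop : IsOpen (c.Om σ ∩ Dm) := (c.isOpen_Om σ).inter isOpen_Dm
  calc deg (fun z => c.Ψ z - wv σ) (c.Om σ)
      = deg (fun z => c.Ψ z - wv σ) (c.Om σ ∩ Dm) :=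
        deg_excise hn hcont hop inter_subset_left (fun z hz h => ⟨hz, hD z hz h⟩) hc
    _ = deg (fun z => c.FM (prm z) - wv σ) (c.Om σ ∩ Dm) :=
        deg_congr fun z hz => by rw [heq z hz.2]
    _ = deg (fun z => c.FM (prm z) - wv σ) Dm :=
        (deg_excise hn hcont' hop inter_subset_right (fun z hz h => ⟨hO z hz h, hz⟩)
          (by rw [hzs]; exact hc)).symm
    _ = ε * deg (fun z => c.FM z - wv σ) univ :=
        deg_comp_right (f := fun z => c.FM z - wv σ) hn (c.continuous_FM.sub continuous_const)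
          contDiff_prm isOpen_Dm injOn_prm hε (mapsTo_univ _ _) (c.compact_zs_FM _)
          fun z hz => c.mem_image_prm h0 hi hσ (sub_eq_zero.1 hz.2)
    _ = ε * δ := by rw [hδ]

theorem deg_Om_nonface {σ : Finset (Fin 10)} (hσ : ¬ c.Face σ) :
    deg (fun z => c.Ψ z - wv σ) (c.Om σ) = 0 :=
  deg_eq_zero (by norm_num) (c.continuous_Ψ.sub continuous_const) fun z hz _ =>
    hσ ⟨xv z, fun j hj => (c.av_pos (hz.1 j hj)).2⟩

theorem deg_Op {i₀ : Fin 10} (h0 : 0 < c.Φ i₀ e1) {σ : Finset (Fin 10)} (hi : i₀ ∈ σ) :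
    deg (fun z => c.Ψ z - wv Finset.univ) (c.Op σ)
      = (-1) ^ (σᶜ).card * deg (fun z => c.Ψ z - wv σ) (c.Om σ) := by
  have hn : 0 < 10 := by norm_num
  have hcont : Continuous fun z => c.Ψ z - wv σ := c.continuous_Ψ.sub continuous_const
  have hc := c.compact_zs_Om h0 hi
  have hmaps : MapsTo Rf (c.Op σ) (c.Om σ) := fun z hz =>
    ⟨fun i hi => by rw [c.av_Rf]; exact hz.1 i hi,
      fun i hi => by rw [c.Gv_Rf]; simpa using hz.2 i hi⟩
  have hmaps' : MapsTo Rf (c.Om σ) (c.Op σ) := fun z hz =>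
    ⟨fun i hi => by rw [c.av_Rf]; exact hz.1 i hi,
      fun i hi => by rw [c.Gv_Rf]; simpa using hz.2 i hi⟩
  have hRR : ∀ z, Rf (Rf z) = z := flip_flip _
  have hinj : InjOn Rf (c.Op σ) := fun x _ y _ h => by rw [← hRR x, h, hRR]
  have hj : ∀ z ∈ c.Op σ, jac Rf z ≠ 0 ∧ sgn (jac Rf z) = 1 := fun z _ => by
    rw [jac_clm]; exact sgn_det_Rf
  have hc' : IsCompact (zs (fun z => c.Ψ (Rf z) - wv σ) (c.Op σ)) := by
    have : zs (fun z => c.Ψ (Rf z) - wv σ) (c.Op σ)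
        = Rf '' zs (fun z => c.Ψ z - wv σ) (c.Om σ) := by
      ext z
      constructor
      · intro h; exact ⟨Rf z, ⟨hmaps h.1, h.2⟩, hRR z⟩
      · rintro ⟨y, hy, rfl⟩
        exact ⟨hmaps' hy.1, by beta_reduce; rw [hRR]; exact hy.2⟩
    rw [this]; exact hc.image Rf.continuous
  calc deg (fun z => c.Ψ z - wv Finset.univ) (c.Op σ)
      = deg (fun z => flip σ (c.Ψ (Rf z) - wv σ)) (c.Op σ) := by
        refine deg_congr fun z hz => ?_
        ext j
        rw [flip_apply]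
        simp only [Ψ, Pi.sub_apply, Pi.add_apply, c.av_Rf, c.Gv_Rf, Pi.neg_apply, wv,
          Finset.mem_univ, if_true]
        split_ifs with h
        · rw [c.Gv_eq_zero (hz.1 j h)]; ring
        · have h1 : c.av z j = 0 := by
            rcases eq_or_lt_of_le (c.av_nonneg (c.av_pos (hz.1 i₀ hi)).1.le j) with h2 | h2
            · exact h2.symm
            · exact absurd (c.Gv_eq_zero h2) (hz.2 j h).ne'
          rw [h1]; ring
    _ = sgn (flip σ).det * deg (fun z => c.Ψ (Rf z) - wv σ) (c.Op σ) :=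
        deg_comp_left (f := fun z => c.Ψ (Rf z) - wv σ) hn
          ((c.continuous_Ψ.comp Rf.continuous).sub continuous_const) (c.isOpen_Op σ) hc' _
          (norm_flip σ)
    _ = (-1) ^ (σᶜ).card * deg (fun z => c.Ψ z - wv σ) (c.Om σ) := by
        rw [sgn_det_flip, deg_comp_right (f := fun z => c.Ψ z - wv σ) hn hcont Rf.contDiff
          (c.isOpen_Op σ) hinj hj hmaps hc fun z hz => ⟨Rf z, hmaps' hz.1, hRR z⟩, one_mul]

open Classical in
theorem ds_e1 {i₀ : Fin 10} (h0 : 0 < c.Φ i₀ e1) {τ : Finset (Fin 10)} (hi : i₀ ∈ τ)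
    (hτ : c.Face τ) :
    ∑ σ ∈ Finset.univ.filter (fun σ => τ ⊆ σ ∧ c.Face σ), (-1 : ℤ) ^ (σᶜ).card = 1 := by
  have hn : 0 < 10 := by norm_num
  obtain ⟨ε, hε0, hε⟩ := exists_sign
  obtain ⟨δ, hδ0, hδ⟩ := c.exists_deg_FM
  have hone : ∀ i, wv Finset.univ i = 1 := fun i => by simp [wv]
  have hc1 := c.compact_zs_Nr h0 hi (v := wv Finset.univ) (fun i _ => hone i) (norm_wv_le _)
  have s1 : deg (fun z => c.Ψ z - wv τ) (c.Nr τ) = ε * δ := by
    rw [← c.deg_Om_face h0 hi hτ hε hδ]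
    exact deg_excise hn (c.continuous_Ψ.sub continuous_const) (c.isOpen_Om τ) (fun z hz => hz.1)
      (fun z hz h => c.mem_Om hi hz h)
      (c.compact_zs_Nr h0 hi (fun i hi => by simp [wv, hi]) (norm_wv_le τ))
  have s2 : deg (fun z => c.Ψ z - wv τ) (c.Nr τ)
      = deg (fun z => c.Ψ z - wv Finset.univ) (c.Nr τ) := by
    refine deg_segment (f₀ := fun z => c.Ψ z - wv τ) (f₁ := fun z => c.Ψ z - wv Finset.univ) hn
      (c.continuous_Ψ.sub continuous_const) (c.continuous_Ψ.sub continuous_const)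
      (c.isOpen_Nr τ) (c.isCompact_Kr h0 hi) (c.Kr_subset τ) fun z hz s hs h => ?_
    have h1 : c.Ψ z = (1 - s) • wv τ + s • wv Finset.univ := by
      rw [smul_sub, smul_sub, sub_add_sub_comm, ← add_smul, sub_add_cancel, one_smul,
        sub_eq_zero] at h
      exact h
    refine c.mem_Kr hz (fun i hi => ?_) ?_
    · rw [h1]; simp [wv, hi]
    · rw [h1]
      refine (norm_add_le _ _).trans ?_
      rw [norm_smul, norm_smul, Real.norm_of_nonneg (by linarith [hs.2]), Real.norm_of_nonneg hs.1]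
      nlinarith [norm_wv_le τ, norm_wv_le Finset.univ, hs.1, hs.2]
  have s3 : deg (fun z => c.Ψ z - wv Finset.univ) (c.Nr τ)
      = ∑ σ ∈ Finset.univ.filter (fun σ => τ ⊆ σ),
        deg (fun z => c.Ψ z - wv Finset.univ) (c.Op σ) := by
    refine deg_sum (f := fun z => c.Ψ z - wv Finset.univ) hn
      (c.continuous_Ψ.sub continuous_const) (fun σ _ => c.isOpen_Op σ)
      (fun σ hσ z hz i hi => hz.1 i ((Finset.mem_filter.1 hσ).2 hi)) ?_ ?_ hc1
    · intro σ _ σ' _ hne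
      refine Set.disjoint_left.2 fun z hz hz' => hne ?_
      ext j
      constructor
      · intro hj
        by_contra hj'
        exact (hz'.2 j hj').ne' (c.Gv_eq_zero (hz.1 j hj))
      · intro hj
        by_contra hj'
        exact (hz.2 j hj').ne' (c.Gv_eq_zero (hz'.1 j hj))
    · intro z hz h
      refine ⟨Finset.univ.filter fun j => 0 < c.av z j, ?_, fun j hj => ?_, fun j hj => ?_⟩
      · simp only [Finset.mem_filter, Finset.mem_univ, true_and]
        intro j hj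
        simpa using hz j hj
      · simpa using hj
      · have h1 := congrFun (sub_eq_zero.1 h) j
        simp only [Ψ, Pi.add_apply, hone] at h1
        have h2 : c.av z j ≤ 0 := by simpa using hj
        linarith
  have s4 : ∀ σ ∈ Finset.univ.filter (fun σ => τ ⊆ σ),
      deg (fun z => c.Ψ z - wv Finset.univ) (c.Op σ)
        = (if c.Face σ then (-1 : ℤ) ^ (σᶜ).card else 0) * (ε * δ) := by
    intro σ hσ
    have hiσ : i₀ ∈ σ := (Finset.mem_filter.1 hσ).2 hi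
    rw [c.deg_Op h0 hiσ]
    split_ifs with hf
    · rw [c.deg_Om_face h0 hiσ hf hε hδ]
    · rw [c.deg_Om_nonface hf]; simp
  rw [s2, s3, Finset.sum_congr rfl s4, ← Finset.sum_mul, ← Finset.sum_filter,
    Finset.filter_filter] at s1
  exact (mul_eq_right₀ (mul_ne_zero hε0 hδ0)).1 s1

end Col

end Vale.Agent.P052
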