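import Vale.Agent.P052.Count

/-! The Brouwer degree of a continuous map on an open set with compact zero set. -/

namespace Vale.Agent.P052

open MeasureTheory Set Filter Topology

variable {n : ℕ}

/-- Admissible smooth approximations. -/
structure Adm (f : Sp n → Sp n) (U V : Set (Sp n)) (g : Sp n → Sp n) : Prop where
  isOpen : IsOpen V
  compact : IsCompact (closure V)
  sub : closure V ⊆ U
  zeros : ∀ x ∈ U, f x = 0 → x ∈ V
  smooth : ContDiff ℝ 1 g
  close : ∀ x ∈ closure V \ V, ‖g x - f x‖ < ‖f x‖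
  reg : IsReg g V

theorem exists_small_notMem {N : Set (Sp n)} (hN : volume N = 0) {η : ℝ} (hη : 0 < η) :
    ∃ y, ‖y‖ < η ∧ y ∉ N := by
  by_contra h
  push Not at h
  have : Metric.ball (0 : Sp n) η ⊆ N := fun y hy => h y (mem_ball_zero_iff.1 hy)
  have h2 := measure_mono_null this hN
  exact (Metric.measure_ball_pos volume (0 : Sp n) hη).ne' h2

theorem jac_sub_const (g : Sp n → Sp n) (y x : Sp n) : jac (fun z => g z - y) x = jac g x := by
  unfold jac; rw [fderiv_sub_const]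

theorem exists_reg_approx {f : Sp n → Sp n} (hf : Continuous f) {η : ℝ} (hη : 0 < η) :
    ∃ g, ContDiff ℝ 1 g ∧ (∀ x, ‖g x - f x‖ < η) ∧ IsReg g univ := by
  obtain ⟨g, hg, hclose, -⟩ := hf.exists_contDiff_approx 1 (ε := fun _ => η / 2)
    continuous_const (fun _ => half_pos hη)
  have hg' : ContDiff ℝ 1 g := hg
  have hN : volume (g '' {x | jac g x = 0}) = 0 :=
    addHaar_image_eq_zero_of_det_fderivWithin_eq_zero volume
      (fun x _ => ((hg'.differentiable one_ne_zero x).hasFDerivAt).hasFDerivWithinAt)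
      (fun x hx => hx)
  obtain ⟨y, hy, hyN⟩ := exists_small_notMem hN (half_pos hη)
  refine ⟨fun x => g x - y, hg'.sub contDiff_const, fun x => ?_, fun x _ h0 => ?_⟩
  · have h1 := hclose x
    rw [dist_eq_norm] at h1
    calc ‖g x - y - f x‖ = ‖(g x - f x) - y‖ := by congr 1; abel
      _ ≤ ‖g x - f x‖ + ‖y‖ := norm_sub_le _ _
      _ < η := by linarith
  · rw [jac_sub_const]
    intro hj
    exact hyN ⟨x, hj, sub_eq_zero.1 h0⟩

theorem seg_ne_zero {a b c : Sp n} (ha : ‖a - c‖ < ‖c‖) (hb : ‖b - c‖ < ‖c‖) {s : ℝ}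
    (hs : s ∈ Icc (0 : ℝ) 1) : (1 - s) • a + s • b ≠ 0 := by
  intro h
  have h1 : (1 - s) • (a - c) + s • (b - c) = -c := by
    rw [smul_sub, smul_sub, sub_add_sub_comm, h, ← add_smul]; simp
  have h2 : ‖c‖ ≤ (1 - s) * ‖a - c‖ + s * ‖b - c‖ := by
    calc ‖c‖ = ‖(1 - s) • (a - c) + s • (b - c)‖ := by rw [h1, norm_neg]
      _ ≤ ‖(1 - s) • (a - c)‖ + ‖s • (b - c)‖ := norm_add_le _ _
      _ = _ := by
        rw [norm_smul, norm_smul, Real.norm_of_nonneg (by linarith [hs.2]),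
          Real.norm_of_nonneg hs.1]
  rcases eq_or_lt_of_le hs.1 with h0 | h0
  · subst h0; simp at h2; linarith
  · nlinarith [hs.2, mul_le_mul_of_nonneg_left ha.le (by linarith [hs.2] : 0 ≤ 1 - s),
      mul_lt_mul_of_pos_left hb h0]

theorem ne_zero_of_close {a c : Sp n} (h : ‖a - c‖ < ‖c‖) : a ≠ 0 := by
  rintro rfl; simp at h

theorem cnt_congr_zs {g : Sp n → Sp n} {V V' : Set (Sp n)} (h : zs g V = zs g V') :
    cnt g V = cnt g V' := by
  unfold cnt; rw [h]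

theorem cnt_eq_of_adm (hn : 0 < n) {f : Sp n → Sp n} (hf : Continuous f) {U V V' : Set (Sp n)}
    {g g' : Sp n → Sp n} (h : Adm f U V g) (h' : Adm f U V' g') : cnt g V = cnt g' V' := by
  obtain ⟨η, hη, hmar⟩ := exists_margin (f := f)
    ((h.compact.union h'.compact).diff (h.isOpen.inter h'.isOpen)) hf.continuousOn (by
      intro x hx h0
      have hxU : x ∈ U := hx.1.elim (fun a => h.sub a) (fun a => h'.sub a)
      exact hx.2 ⟨h.zeros x hxU h0, h'.zeros x hxU h0⟩)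
  obtain ⟨k, hk, hkc, hkr⟩ := exists_reg_approx hf hη
  have e1 : cnt g V = cnt k V := cnt_eq_of_segment hn h.smooth hk h.isOpen h.compact h.reg
    (fun x _ => hkr x trivial) fun x hx s hs =>
      seg_ne_zero (h.close x hx) ((hkc x).trans_le (hmar x ⟨Or.inl hx.1, fun a => hx.2 a.1⟩)) hs
  have e2 : cnt g' V' = cnt k V' := cnt_eq_of_segment hn h'.smooth hk h'.isOpen h'.compact h'.reg
    (fun x _ => hkr x trivial) fun x hx s hs =>
      seg_ne_zero (h'.close x hx) ((hkc x).trans_le (hmar x ⟨Or.inr hx.1, fun a => hx.2 a.2⟩)) hs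
  have hz : ∀ x ∈ closure V ∪ closure V', k x = 0 → x ∈ V ∩ V' := by
    intro x hx h0
    by_contra hn
    exact ne_zero_of_close ((hkc x).trans_le (hmar x ⟨hx, hn⟩)) h0
  rw [e1, e2]
  apply cnt_congr_zs
  ext x
  exact ⟨fun a => ⟨(hz x (Or.inl (subset_closure a.1)) a.2).2, a.2⟩,
    fun a => ⟨(hz x (Or.inr (subset_closure a.1)) a.2).1, a.2⟩⟩

open Classical in
/-- Count of a chosen pair. -/
noncomputable def degAux (P : Set (Sp n) × (Sp n → Sp n) → Prop) : ℤ :=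
  if h : ∃ p, P p then cnt h.choose.2 h.choose.1 else 0

/-- The degree. -/
noncomputable def deg (f : Sp n → Sp n) (U : Set (Sp n)) : ℤ :=
  degAux fun p => Adm f U p.1 p.2

theorem deg_eq (hn : 0 < n) {f : Sp n → Sp n} (hf : Continuous f) {U V : Set (Sp n)}
    {g : Sp n → Sp n} (h : Adm f U V g) : deg f U = cnt g V := by
  have h1 : ∃ p : Set (Sp n) × (Sp n → Sp n), Adm f U p.1 p.2 := ⟨(V, g), h⟩
  unfold deg degAux
  rw [dif_pos h1]
  exact cnt_eq_of_adm hn hf h1.choose_spec h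

theorem exists_adm {f : Sp n → Sp n} (hf : Continuous f) {U V : Set (Sp n)} (hV : IsOpen V)
    (hVc : IsCompact (closure V)) (hVU : closure V ⊆ U) (hz : ∀ x ∈ U, f x = 0 → x ∈ V)
    {η : ℝ} (hη : 0 < η) :
    ∃ g, Adm f U V g ∧ (∀ x, ‖g x - f x‖ < η) ∧ IsReg g univ := by
  obtain ⟨η', hη', hmar⟩ := exists_margin (f := f) (hVc.diff hV) hf.continuousOn
    (fun x hx h0 => hx.2 (hz x (hVU hx.1) h0))
  obtain ⟨g, hg, hgc, hgr⟩ := exists_reg_approx hf (lt_min hη hη')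
  exact ⟨g, ⟨hV, hVc, hVU, hz, hg,
    fun x hx => ((hgc x).trans_le (min_le_right _ _)).trans_le (hmar x hx),
    fun x _ => hgr x trivial⟩, fun x => (hgc x).trans_le (min_le_left _ _), hgr⟩

theorem Adm.congr {f f' : Sp n → Sp n} {U V : Set (Sp n)} {g : Sp n → Sp n} (h : Adm f U V g)
    (hff : ∀ x ∈ U, f x = f' x) : Adm f' U V g :=
  ⟨h.isOpen, h.compact, h.sub, fun x hx h0 => h.zeros x hx ((hff x hx).trans h0), h.smooth,
    fun x hx => by rw [← hff x (h.sub hx.1)]; exact h.close x hx, h.reg⟩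

theorem deg_congr {f f' : Sp n → Sp n} {U : Set (Sp n)} (hff : ∀ x ∈ U, f x = f' x) :
    deg f U = deg f' U := by
  have : (fun p : Set (Sp n) × (Sp n → Sp n) => Adm f U p.1 p.2)
      = fun p : Set (Sp n) × (Sp n → Sp n) => Adm f' U p.1 p.2 :=
    funext fun p => propext ⟨fun h => h.congr hff, fun h => h.congr fun x hx => (hff x hx).symm⟩
  unfold deg
  rw [this]

theorem deg_eq_zero (hn : 0 < n) {f : Sp n → Sp n} (hf : Continuous f) {U : Set (Sp n)}
    (h : ∀ x ∈ U, f x ≠ 0) : deg f U = 0 := by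
  have : Adm f U ∅ (fun _ => 0) := ⟨isOpen_empty, by simp, by simp,
    fun x hx h0 => (h x hx h0).elim, contDiff_const, by simp, fun x hx => hx.elim⟩
  rw [deg_eq hn hf this]
  simp [cnt, zs]

/-- Excision. -/
theorem deg_excise (hn : 0 < n) {f : Sp n → Sp n} (hf : Continuous f) {U U' : Set (Sp n)}
    (hU' : IsOpen U') (hsub : U' ⊆ U) (hz : ∀ x ∈ U, f x = 0 → x ∈ U')
    (hc : IsCompact (zs f U)) : deg f U = deg f U' := by
  obtain ⟨V, hV, hKV, hVU, hVc⟩ := exists_open_between_and_isCompact_closure hc hU'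
    (fun x hx => hz x hx.1 hx.2)
  obtain ⟨g, hg, -, -⟩ := exists_adm hf hV hVc hVU
    (fun x hx h0 => hKV ⟨hsub hx, h0⟩) one_pos
  have hg' : Adm f U V g := ⟨hV, hVc, hVU.trans hsub, fun x hx h0 => hKV ⟨hx, h0⟩, hg.smooth,
    hg.close, hg.reg⟩
  rw [deg_eq hn hf hg, deg_eq hn hf hg']

theorem compact_piece {ι : Type*} {f : Sp n → Sp n} {U : Set (Sp n)} {s : Finset ι}
    {W : ι → Set (Sp n)} (hW : ∀ i ∈ s, IsOpen (W i)) (hWU : ∀ i ∈ s, W i ⊆ U)
    (hdisj : (s : Set ι).PairwiseDisjoint W) (hz : ∀ x ∈ U, f x = 0 → ∃ i ∈ s, x ∈ W i)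
    (hc : IsCompact (zs f U)) {i : ι} (hi : i ∈ s) : IsCompact (zs f (W i)) := by
  classical
  have : zs f (W i) = zs f U \ ⋃ j ∈ s.erase i, W j := by
    ext x
    simp only [Set.mem_sdiff, mem_iUnion, not_exists, Finset.mem_erase]
    constructor
    · rintro ⟨hx, h0⟩
      refine ⟨⟨hWU i hi hx, h0⟩, fun j hj hxj => ?_⟩
      exact Set.disjoint_left.1 (hdisj hj.2 hi hj.1) hxj hx
    · rintro ⟨⟨hx, h0⟩, h⟩
      obtain ⟨j, hj, hxj⟩ := hz x hx h0
      by_cases hji : j = i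
      · subst hji; exact ⟨hxj, h0⟩
      · exact (h j ⟨hji, hj⟩ hxj).elim
  rw [this]
  exact hc.diff (isOpen_biUnion fun j hj => hW j (Finset.mem_of_mem_erase hj))

/-- Additivity. -/
theorem deg_sum (hn : 0 < n) {ι : Type*} {f : Sp n → Sp n} (hf : Continuous f) {U : Set (Sp n)}
    {s : Finset ι} {W : ι → Set (Sp n)} (hW : ∀ i ∈ s, IsOpen (W i)) (hWU : ∀ i ∈ s, W i ⊆ U)
    (hdisj : (s : Set ι).PairwiseDisjoint W) (hz : ∀ x ∈ U, f x = 0 → ∃ i ∈ s, x ∈ W i)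
    (hc : IsCompact (zs f U)) : deg f U = ∑ i ∈ s, deg f (W i) := by
  classical
  have h1 : ∀ i ∈ s, ∃ V, IsOpen V ∧ zs f (W i) ⊆ V ∧ closure V ⊆ W i ∧ IsCompact (closure V) :=
    fun i hi => exists_open_between_and_isCompact_closure
      (compact_piece hW hWU hdisj hz hc hi) (hW i hi) (fun x hx => hx.1)
  choose! V hV hKV hVW hVc using h1
  have hB : IsCompact (⋃ i ∈ s, closure (V i) \ V i) :=
    s.isCompact_biUnion fun i hi => (hVc i hi).diff (hV i hi)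
  obtain ⟨η, hη, hmar⟩ := exists_margin (f := f) hB hf.continuousOn (by
    intro x hx h0
    obtain ⟨i, hi, hxi⟩ := mem_iUnion₂.1 hx
    exact hxi.2 (hKV i hi ⟨hVW i hi hxi.1, h0⟩))
  obtain ⟨g, hg, hgc, hgr⟩ := exists_reg_approx hf hη
  have hi : ∀ i ∈ s, Adm f (W i) (V i) g := fun i hi =>
    ⟨hV i hi, hVc i hi, hVW i hi, fun x hx h0 => hKV i hi ⟨hx, h0⟩, hg,
      fun x hx => (hgc x).trans_le (hmar x (mem_biUnion hi hx)), fun x _ => hgr x trivial⟩
  have hcl : closure (⋃ i ∈ s, V i) = ⋃ i ∈ s, closure (V i) := s.closure_biUnion V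
  have hall : Adm f U (⋃ i ∈ s, V i) g := by
    refine ⟨isOpen_biUnion hV, ?_, ?_, ?_, hg, ?_, fun x _ => hgr x trivial⟩
    · rw [hcl]; exact s.isCompact_biUnion hVc
    · rw [hcl]; exact iUnion₂_subset fun i hi => (hVW i hi).trans (hWU i hi)
    · intro x hx h0
      obtain ⟨i, hi, hxi⟩ := hz x hx h0
      exact mem_biUnion hi (hKV i hi ⟨hxi, h0⟩)
    · intro x hx
      rw [hcl] at hx
      obtain ⟨i, hi, hxi⟩ := mem_iUnion₂.1 hx.1
      exact (hgc x).trans_le (hmar x (mem_biUnion hi ⟨hxi, fun h => hx.2 (mem_biUnion hi h)⟩))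
  rw [deg_eq hn hf hall, Finset.sum_congr rfl fun i hi' => deg_eq hn hf (hi i hi')]
  have hzs : zs g (⋃ i ∈ s, V i) = ⋃ i ∈ (s : Set ι), zs g (V i) := by
    ext x
    simp only [zs, mem_ofPred_eq, mem_iUnion, Finset.mem_coe]
    constructor
    · rintro ⟨⟨i, hi, hx⟩, h0⟩; exact ⟨i, hi, hx, h0⟩
    · rintro ⟨i, hi, hx, h0⟩; exact ⟨⟨i, hi, hx⟩, h0⟩
  unfold cnt
  rw [hzs, finsum_mem_biUnion _ s.finite_toSet, finsum_mem_coe_finset]
  · intro i hi
    exact (finite_zs hg (hVc i hi) fun x _ => hgr x trivial).subset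
      fun x hx => ⟨subset_closure hx.1, hx.2⟩
  · intro i hi j hj hij
    exact (hdisj hi hj hij).mono (fun x hx => hVW i hi (subset_closure hx.1))
      (fun x hx => hVW j hj (subset_closure hx.1))

/-- Invariance along a segment. -/
theorem deg_segment (hn : 0 < n) {f₀ f₁ : Sp n → Sp n} (h₀ : Continuous f₀) (h₁ : Continuous f₁)
    {U K : Set (Sp n)} (hU : IsOpen U) (hK : IsCompact K) (hKU : K ⊆ U)
    (hz : ∀ x ∈ U, ∀ s ∈ Icc (0 : ℝ) 1, (1 - s) • f₀ x + s • f₁ x = 0 → x ∈ K) :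
    deg f₀ U = deg f₁ U := by
  obtain ⟨V, hV, hKV, hVU, hVc⟩ := exists_open_between_and_isCompact_closure hK hU hKU
  set H : Sp n × ℝ → Sp n := fun q => (1 - q.2) • f₀ q.1 + q.2 • f₁ q.1 with hH
  have hHc : Continuous H := by fun_prop
  obtain ⟨η, hη, hmar⟩ := exists_margin (f := H) ((hVc.diff hV).prod (isCompact_Icc (a := (0 : ℝ))
    (b := 1))) hHc.continuousOn (by
      rintro ⟨x, s⟩ ⟨hx, hs⟩ h
      exact hx.2 (hKV (hz x (hVU hx.1) s hs h)))
  obtain ⟨g₀, a₀, c₀, -⟩ := exists_adm h₀ hV hVc hVU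
    (fun x hx h0 => hKV (hz x hx 0 (by simp) (by simp [h0]))) hη
  obtain ⟨g₁, a₁, c₁, -⟩ := exists_adm h₁ hV hVc hVU
    (fun x hx h0 => hKV (hz x hx 1 (by simp) (by simp [h0]))) hη
  rw [deg_eq hn h₀ a₀, deg_eq hn h₁ a₁]
  refine cnt_eq_of_segment hn a₀.smooth a₁.smooth hV hVc a₀.reg a₁.reg fun x hx s hs h => ?_
  have h2 := hmar (x, s) ⟨hx, hs⟩
  have h3 : H (x, s) = -((1 - s) • (g₀ x - f₀ x) + s • (g₁ x - f₁ x)) := by
    rw [smul_sub, smul_sub, sub_add_sub_comm, h]; simp [hH]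
  rw [h3, norm_neg] at h2
  have h4 : ‖(1 - s) • (g₀ x - f₀ x) + s • (g₁ x - f₁ x)‖
      ≤ (1 - s) * ‖g₀ x - f₀ x‖ + s * ‖g₁ x - f₁ x‖ := by
    refine (norm_add_le _ _).trans ?_
    rw [norm_smul, norm_smul, Real.norm_of_nonneg (by linarith [hs.2]), Real.norm_of_nonneg hs.1]
  have a := c₀ x
  have b := c₁ x
  rcases eq_or_lt_of_le hs.1 with h0 | h0
  · subst h0; simp at h4 h2; linarith
  · nlinarith [hs.2, mul_le_mul_of_nonneg_left a.le (by linarith [hs.2] : 0 ≤ 1 - s),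
      mul_lt_mul_of_pos_left b h0]

theorem jac_clm (S : Sp n →L[ℝ] Sp n) (x : Sp n) : jac S x = S.det := by
  unfold jac; rw [S.fderiv]

/-- Composition with a linear isometry of the target. -/
theorem deg_comp_left (hn : 0 < n) {f : Sp n → Sp n} (hf : Continuous f) {U : Set (Sp n)}
    (hU : IsOpen U) (hc : IsCompact (zs f U)) (S : Sp n →L[ℝ] Sp n) (hS : ∀ v, ‖S v‖ = ‖v‖) :
    deg (fun x => S (f x)) U = sgn S.det * deg f U := by
  have hS0 : ∀ v, S v = 0 → v = 0 := fun v h => by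
    have := hS v; rw [h, norm_zero] at this; exact norm_eq_zero.1 this.symm
  have hdet := det_ne_zero_of_inj S hS0
  obtain ⟨V, hV, hKV, hVU, hVc⟩ := exists_open_between_and_isCompact_closure hc hU
    (fun x hx => hx.1)
  obtain ⟨g, hg, -, -⟩ := exists_adm hf hV hVc hVU (fun x hx h0 => hKV ⟨hx, h0⟩) one_pos
  have hj : ∀ x, jac (fun y => S (g y)) x = S.det * jac g x := fun x => by
    rw [jac_comp S.differentiableAt (hg.smooth.differentiable one_ne_zero x), jac_clm]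
  have hg' : Adm (fun x => S (f x)) U V (fun x => S (g x)) := by
    refine ⟨hV, hVc, hVU, fun x hx h0 => hKV ⟨hx, hS0 _ h0⟩, S.contDiff.comp hg.smooth,
      fun x hx => ?_, fun x hx h0 => ?_⟩
    · rw [← map_sub, hS, hS]; exact hg.close x hx
    · rw [hj]; exact mul_ne_zero hdet (hg.reg x hx (hS0 _ h0))
  rw [deg_eq hn (f := fun x => S (f x)) (S.continuous.comp hf) hg', deg_eq hn hf hg]
  unfold cnt
  have hzs : zs (fun x => S (g x)) V = zs g V := by
    ext x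
    exact ⟨fun h => ⟨h.1, hS0 _ h.2⟩, fun h => ⟨h.1, by simp [h.2]⟩⟩
  rw [hzs, mul_finsum_mem]
  refine finsum_mem_congr rfl fun x hx => ?_
  rw [hj, sgn_mul hdet (hg.reg x hx.1 hx.2)]

theorem isOpen_image_of_jac {π : Sp n → Sp n} (hπ : ContDiff ℝ 1 π) {V : Set (Sp n)}
    (hV : IsOpen V) (hj : ∀ x ∈ V, jac π x ≠ 0) : IsOpen (π '' V) := by
  rw [isOpen_iff_mem_nhds]
  rintro _ ⟨x, hx, rfl⟩
  rw [← (local_struct hπ (hj x hx)).2]
  exact image_mem_map (hV.mem_nhds hx)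

theorem compact_preimage_of_jac {π : Sp n → Sp n} (hπ : ContDiff ℝ 1 π) {U K : Set (Sp n)}
    (hU : IsOpen U) (hinj : InjOn π U) (hj : ∀ x ∈ U, jac π x ≠ 0) (hK : IsCompact K)
    (hKU : K ⊆ π '' U) : IsCompact (U ∩ π ⁻¹' K) := by
  have he : IsOpenEmbedding (fun x : U => π x) := by
    refine IsOpenEmbedding.of_continuous_injective_isOpenMap
      (hπ.continuous.comp continuous_subtype_val)
      (fun x y h => Subtype.ext (hinj x.2 y.2 h)) fun W hW => ?_
    have h1 : IsOpen (Subtype.val '' W) := hU.isOpenEmbedding_subtypeVal.isOpenMap W hW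
    have h2 := isOpen_image_of_jac hπ h1 (by rintro _ ⟨x, _, rfl⟩; exact hj x x.2)
    rwa [image_image] at h2
  have h3 := he.isInducing.isCompact_preimage' hK (by
    intro y hy
    obtain ⟨x, hx, rfl⟩ := hKU hy
    exact ⟨⟨x, hx⟩, rfl⟩)
  have h4 := h3.image continuous_subtype_val
  convert h4 using 1
  ext x
  simp only [mem_inter_iff, mem_preimage, mem_image, Subtype.exists, exists_and_right,
    exists_eq_right]
  exact ⟨fun h => ⟨h.1, h.2⟩, fun ⟨a, b⟩ => ⟨a, b⟩⟩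

/-- Change of variables in the domain. -/
theorem deg_comp_right (hn : 0 < n) {f π : Sp n → Sp n} (hf : Continuous f)
    (hπ : ContDiff ℝ 1 π) {U U' : Set (Sp n)} (hU : IsOpen U) (hinj : InjOn π U)
    {ε : ℤ} (hj : ∀ x ∈ U, jac π x ≠ 0 ∧ sgn (jac π x) = ε) (hmaps : MapsTo π U U')
    (hc : IsCompact (zs f U')) (hz : zs f U' ⊆ π '' U) :
    deg (fun x => f (π x)) U = ε * deg f U' := by
  have hc' : IsCompact (zs (fun x => f (π x)) U) := by
    have := compact_preimage_of_jac hπ hU hinj (fun x hx => (hj x hx).1) hc hz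
    convert this using 1
    ext x
    exact ⟨fun h => ⟨h.1, hmaps h.1, h.2⟩, fun h => ⟨h.1, h.2.2⟩⟩
  obtain ⟨V, hV, hKV, hVU, hVc⟩ := exists_open_between_and_isCompact_closure hc' hU
    (fun x hx => hx.1)
  have hVU' : V ⊆ U := subset_closure.trans hVU
  obtain ⟨η, hη, hmar⟩ := exists_margin (f := fun x => f (π x)) (hVc.diff hV)
    (hf.comp hπ.continuous).continuousOn (fun x hx h0 => hx.2 (hKV ⟨hVU hx.1, h0⟩))
  obtain ⟨g, hg, hgc, hgr⟩ := exists_reg_approx hf hη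
  have hjc : ∀ x, jac (fun y => g (π y)) x = jac g (π x) * jac π x := fun x =>
    jac_comp (hg.differentiable one_ne_zero _) (hπ.differentiable one_ne_zero x)
  have a1 : Adm (fun x => f (π x)) U V (fun x => g (π x)) := by
    refine ⟨hV, hVc, hVU, fun x hx h0 => hKV ⟨hx, h0⟩, hg.comp hπ,
      fun x hx => (hgc _).trans_le (hmar x hx), fun x hx h0 => ?_⟩
    rw [hjc]; exact mul_ne_zero (hgr _ trivial h0) (hj x (hVU' hx)).1
  have hcl : closure (π '' V) ⊆ π '' closure V :=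
    closure_minimal (image_mono subset_closure) (hVc.image hπ.continuous).isClosed
  have a2 : Adm f U' (π '' V) g := by
    refine ⟨isOpen_image_of_jac hπ hV fun x hx => (hj x (hVU' hx)).1,
      (hVc.image hπ.continuous).of_isClosed_subset isClosed_closure hcl,
      hcl.trans ?_, fun y hy h0 => ?_, hg, fun y hy => ?_, fun y _ => hgr y trivial⟩
    · rintro _ ⟨x, hx, rfl⟩; exact hmaps (hVU hx)
    · obtain ⟨x, hx, rfl⟩ := hz ⟨hy, h0⟩
      exact ⟨x, hKV ⟨hx, h0⟩, rfl⟩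
    · obtain ⟨x, hx, rfl⟩ := hcl hy.1
      exact (hgc _).trans_le (hmar x ⟨hx, fun h => hy.2 ⟨x, h, rfl⟩⟩)
  rw [deg_eq hn (f := fun x => f (π x)) (hf.comp hπ.continuous) a1, deg_eq hn hf a2]
  unfold cnt
  rw [mul_finsum_mem]
  refine finsum_mem_eq_of_bijOn π ⟨fun x hx => ⟨⟨x, hx.1, rfl⟩, hx.2⟩,
    fun x hx y hy h => hinj (hVU' hx.1) (hVU' hy.1) h, ?_⟩ fun x hx => ?_
  · rintro _ ⟨⟨x, hx, rfl⟩, h0⟩
    exact ⟨x, ⟨hx, h0⟩, rfl⟩
  · rw [hjc, sgn_mul (hgr _ trivial hx.2) (hj x (hVU' hx.1)).1, (hj x (hVU' hx.1)).2, mul_comm]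

end Vale.Agent.P052
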