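import Vale.Agent.P052.DS2

/-! Properties of the complex of colours. -/

namespace Vale.Agent.P052

open Matrix Set Filter Topology

/-- Quaternion multiplication matrix. -/
def quat (x : V4) : M4 :=
  !![x 0, -x 1, -x 2, -x 3; x 1, x 0, -x 3, x 2; x 2, x 3, x 0, -x 1; x 3, -x 2, x 1, x 0]

theorem quat_dot (x v w : V4) : (quat x *ᵥ v) ⬝ᵥ (quat x *ᵥ w) = (x ⬝ᵥ x) * (v ⬝ᵥ w) := by
  simp [quat, mulVec, dotProduct, Fin.sum_univ_four]; ring

theorem quat_e1 (x : V4) : quat x *ᵥ e1 = x := by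
  ext i; fin_cases i <;> simp [quat, e1, mulVec, dotProduct, Fin.sum_univ_four]

theorem quat_quat (x y : V4) : quat x *ᵥ ((quat x)ᵀ *ᵥ y) = (x ⬝ᵥ x) • y := by
  ext i; fin_cases i <;> simp [quat, mulVec, dotProduct, Fin.sum_univ_four] <;> ring

theorem exists_orth (a b d : V4) : ∃ p : V4, p ≠ 0 ∧ p ⬝ᵥ a = 0 ∧ p ⬝ᵥ b = 0 ∧ p ⬝ᵥ d = 0 := by
  let f : V4 →ₗ[ℝ] (Fin 3 → ℝ) := Matrix.toLin' (Matrix.of ![a, b, d])
  have h : LinearMap.ker f ≠ ⊥ := LinearMap.ker_ne_bot_of_finrank_lt (by simp)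
  obtain ⟨p, hp, hp0⟩ := Submodule.exists_mem_ne_zero_of_ne_bot h
  have h1 : Matrix.of ![a, b, d] *ᵥ p = 0 := by simpa [f] using hp
  refine ⟨p, hp0, ?_, ?_, ?_⟩
  · rw [dotProduct_comm]; exact congrFun h1 0
  · rw [dotProduct_comm]; exact congrFun h1 1
  · rw [dotProduct_comm]; exact congrFun h1 2

/-- Symmetrised outer product. -/
def sy (p q : V4) : M4 := Matrix.of fun i j => p i * q j + q i * p j

theorem sy_symm (p q : V4) : (sy p q)ᵀ = sy p q := by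
  ext i j; simp [sy]; ring

theorem sy_mulVec (p q x : V4) : sy p q *ᵥ x = (q ⬝ᵥ x) • p + (p ⬝ᵥ x) • q := by
  ext i; simp [sy, mulVec, dotProduct, Fin.sum_univ_four]; ring

namespace Col

variable (c : Col)

/-- The colouring seen in a rotated frame. -/
def rot {x : V4} (hx : x ≠ 0) : Col where
  Φ i v := c.Φ i (quat x *ᵥ v)
  cont i := (c.cont i).comp (continuous_const.matrix_mulVec continuous_id)
  nonneg i v := c.nonneg i _
  homog i t v := by rw [mulVec_smul, c.homog]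
  cover v hv := c.cover _ fun h => by
    have := quat_dot x v v
    rw [h, dotProduct_zero] at this
    rcases mul_eq_zero.1 this.symm with h1 | h1
    · exact hx (dotProduct_self_eq_zero.1 h1)
    · exact hv (dotProduct_self_eq_zero.1 h1)
  noorth i v w hv hw h := c.noorth i _ _ hv hw (by rw [quat_dot, h, mul_zero])

theorem rot_face {x : V4} (hx : x ≠ 0) (σ : Finset (Fin 10)) : (c.rot hx).Face σ ↔ c.Face σ := by
  constructor
  · rintro ⟨y, hy⟩; exact ⟨_, hy⟩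
  · rintro ⟨y, hy⟩
    refine ⟨(quat x)ᵀ *ᵥ y, fun j hj => ?_⟩
    show 0 < c.Φ j (quat x *ᵥ ((quat x)ᵀ *ᵥ y))
    rw [quat_quat]
    exact (c.smul_pos_iff fun h => hx (dotProduct_self_eq_zero.1 h)).2 (hy j hj)

open Classical in
theorem ds {τ : Finset (Fin 10)} (hne : τ.Nonempty) (hτ : c.Face τ) :
    ∑ σ ∈ Finset.univ.filter (fun σ => τ ⊆ σ ∧ c.Face σ), (-1 : ℤ) ^ (σᶜ).card = 1 := by
  obtain ⟨i₀, hi⟩ := hne
  obtain ⟨x, hx⟩ := id hτ
  have hx0 := c.ne_zero (hx i₀ hi)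
  have := (c.rot hx0).ds_e1 (i₀ := i₀) (by
    show 0 < c.Φ i₀ (quat x *ᵥ e1)
    rw [quat_e1]; exact hx i₀ hi) hi ((c.rot_face hx0 τ).2 hτ)
  simpa only [c.rot_face hx0] using this

theorem few_colours {m : ℕ} {L : Sp (m + 1) → M4} (hc : Continuous L)
    (hodd : ∀ b, L (-b) = -L b) (hs : ∀ b, (L b)ᵀ = L b) (hinj : ∀ b, L b = 0 → b = 0)
    {S : Finset (Fin 10)} (hS : ∀ b j, j ∉ S → c.F (L b) j = 0) : m + 1 ≤ S.card := by
  by_contra hlt
  let f : Sp (m + 1) → Sp (m + 1) := fun b k =>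
    if h : k.val < S.card then c.F (L b) (S.orderEmbOfFin rfl ⟨k.val, h⟩) else 0
  have hF := c.continuous_F hc hs
  have hf : Continuous f := by
    refine continuous_pi fun k => ?_
    simp only [f]
    split_ifs
    · exact (continuous_apply _).comp hF
    · exact continuous_const
  obtain ⟨b, hb, hb0⟩ := borsuk_ulam hf (fun b => by
    ext k
    simp only [f, hodd, c.F_neg, Pi.neg_apply]
    split_ifs <;> simp) (Fin.last m) (fun b => by
    simp only [f, Fin.val_last]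
    rw [dif_neg (by omega)])
  refine hb (hinj b (c.eq_zero_of_F (hs b) ?_))
  ext j
  by_cases hj : j ∈ S
  · have : j ∈ Set.range (S.orderEmbOfFin rfl) := by rw [Finset.range_orderEmbOfFin]; exact hj
    obtain ⟨k, rfl⟩ := this
    have h1 := congrFun hb0 ⟨k.val, by omega⟩
    simp only [f, k.2, dif_pos] at h1
    exact h1
  · exact hS b j hj

theorem plane {p q : V4} (hp : p ≠ 0) (hq : q ≠ 0) (hpq : p ⬝ᵥ q = 0) {S : Finset (Fin 10)}
    (hS : ∀ l, l ∉ S → ∃ x, 0 < c.Φ l x ∧ p ⬝ᵥ x = 0 ∧ q ⬝ᵥ x = 0) : 3 ≤ S.card := by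
  have hp' : p ⬝ᵥ p ≠ 0 := fun h => hp (dotProduct_self_eq_zero.1 h)
  have hq' : q ⬝ᵥ q ≠ 0 := fun h => hq (dotProduct_self_eq_zero.1 h)
  have hqp : q ⬝ᵥ p = 0 := by rw [dotProduct_comm]; exact hpq
  refine c.few_colours (m := 2) (L := fun b => b 0 • sy p p + b 1 • sy p q + b 2 • sy q q)
    (by fun_prop) (fun b => by simp; abel) (fun b => by simp [sy_symm]) (fun b hb => ?_)
    (fun b j hj => ?_)
  · have h : ∀ u v : V4, u ⬝ᵥ (b 0 • sy p p + b 1 • sy p q + b 2 • sy q q) *ᵥ v = 0 := by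
      intro u v; rw [hb]; simp
    have a0 := h p p
    have a1 := h p q
    have a2 := h q q
    simp [add_mulVec, smul_mulVec, sy_mulVec, hpq, hqp, hp', hq'] at a0 a1 a2
    ext i; fin_cases i <;> assumption
  · obtain ⟨x, hx, h1, h2⟩ := hS j hj
    refine c.F_eq_zero_of_ker (by simp [sy_symm]) ?_ hx
    simp [add_mulVec, smul_mulVec, sy_mulVec, h1, h2]

theorem space {p q r : V4} (hp : p ≠ 0) (hq : q ≠ 0) (hr : r ≠ 0) (hpq : p ⬝ᵥ q = 0)
    (hpr : p ⬝ᵥ r = 0) (hqr : q ⬝ᵥ r = 0) {S : Finset (Fin 10)}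
    (hS : ∀ l, l ∉ S → ∃ x, 0 < c.Φ l x ∧ p ⬝ᵥ x = 0 ∧ q ⬝ᵥ x = 0 ∧ r ⬝ᵥ x = 0) :
    6 ≤ S.card := by
  have hp' : p ⬝ᵥ p ≠ 0 := fun h => hp (dotProduct_self_eq_zero.1 h)
  have hq' : q ⬝ᵥ q ≠ 0 := fun h => hq (dotProduct_self_eq_zero.1 h)
  have hr' : r ⬝ᵥ r ≠ 0 := fun h => hr (dotProduct_self_eq_zero.1 h)
  have hqp : q ⬝ᵥ p = 0 := by rw [dotProduct_comm]; exact hpq
  have hrp : r ⬝ᵥ p = 0 := by rw [dotProduct_comm]; exact hpr
  have hrq : r ⬝ᵥ q = 0 := by rw [dotProduct_comm]; exact hqr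
  refine c.few_colours (m := 5) (L := fun b => b 0 • sy p p + b 1 • sy p q + b 2 • sy q q
      + b 3 • sy p r + b 4 • sy q r + b 5 • sy r r)
    (by fun_prop) (fun b => by simp; abel) (fun b => by simp [sy_symm]) (fun b hb => ?_)
    (fun b j hj => ?_)
  · have h : ∀ u v : V4, u ⬝ᵥ (b 0 • sy p p + b 1 • sy p q + b 2 • sy q q
        + b 3 • sy p r + b 4 • sy q r + b 5 • sy r r) *ᵥ v = 0 := by
      intro u v; rw [hb]; simp
    have a0 := h p p
    have a1 := h p q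
    have a2 := h q q
    have a3 := h p r
    have a4 := h q r
    have a5 := h r r
    simp [add_mulVec, smul_mulVec, sy_mulVec, hpq, hqp, hp', hq', hr', hpr, hrp, hqr, hrq]
      at a0 a1 a2 a3 a4 a5
    ext i; fin_cases i <;> assumption
  · obtain ⟨x, hx, h1, h2, h3⟩ := hS j hj
    refine c.F_eq_zero_of_ker (by simp [sy_symm]) ?_ hx
    simp [add_mulVec, smul_mulVec, sy_mulVec, h1, h2, h3]

theorem face_card {σ : Finset (Fin 10)} (h : c.Face σ) : σ.card ≤ 4 := by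
  obtain ⟨x, hx⟩ := h
  obtain ⟨p, hp, p1, -, -⟩ := exists_orth x 0 0
  obtain ⟨q, hq, q1, q2, -⟩ := exists_orth x p 0
  obtain ⟨r, hr, r1, r2, r3⟩ := exists_orth x p q
  have := c.space hp hq hr (by rw [dotProduct_comm]; exact q2) (by rw [dotProduct_comm]; exact r2)
    (by rw [dotProduct_comm]; exact r3) (S := σᶜ)
    (fun l hl => ⟨x, hx l (by simpa using hl), p1, q1, r1⟩)
  rw [Finset.card_compl, Fintype.card_fin] at this
  omega

theorem face_union {σ σ' : Finset (Fin 10)} (h : c.Face σ) (h' : c.Face σ') :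
    (σ ∪ σ').card ≤ 7 := by
  obtain ⟨x, hx⟩ := h
  obtain ⟨y, hy⟩ := h'
  obtain ⟨p, hp, p1, p2, -⟩ := exists_orth x y 0
  obtain ⟨q, hq, q1, q2, q3⟩ := exists_orth x y p
  have := c.plane hp hq (by rw [dotProduct_comm]; exact q3) (S := (σ ∪ σ')ᶜ) (fun l hl => by
    have hl' : l ∈ σ ∪ σ' := by simpa only [Finset.mem_compl, not_not] using hl
    rcases Finset.mem_union.1 hl' with a | a
    · exact ⟨x, hx l a, p1, q1⟩
    · exact ⟨y, hy l a, p2, q2⟩)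
  rw [Finset.card_compl, Fintype.card_fin] at this
  omega

theorem face_pair (i j : Fin 10) : c.Face {i, j} := by
  obtain ⟨z, hz⟩ := c.surj_FM (wv {i, j})
  obtain ⟨P, N, hd⟩ := exists_dec (mat_symm z)
  have hF : ∀ l, c.F (mat z) l = wv {i, j} l := fun l => congrFun hz l
  obtain ⟨u, hu⟩ := (c.F_pos_iff hd (i := i)).1 (by rw [hF]; simp [wv])
  obtain ⟨v, hv⟩ := (c.F_pos_iff hd (i := j)).1 (by rw [hF]; simp [wv])
  have hp := c.ne_zero hu
  have hp' : (P *ᵥ u) ⬝ᵥ (P *ᵥ u) ≠ 0 := fun h => hp (dotProduct_self_eq_zero.1 h)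
  set t := (P *ᵥ u) ⬝ᵥ (P *ᵥ v) / ((P *ᵥ u) ⬝ᵥ (P *ᵥ u)) with ht
  by_cases hq : P *ᵥ (v - t • u) = 0
  · rw [mulVec_sub, mulVec_smul, sub_eq_zero] at hq
    rw [hq] at hv
    refine ⟨P *ᵥ u, fun l hl => ?_⟩
    rcases Finset.mem_insert.1 hl with rfl | h
    · exact hu
    · rw [Finset.mem_singleton.1 h]; exact c.pos_of_smul hv
  · have := c.plane hp hq (by
      rw [mulVec_sub, mulVec_smul, dotProduct_sub, dotProduct_smul, smul_eq_mul, ht,
        div_mul_cancel₀ _ hp', sub_self]) (S := {i, j}) (fun l hl => by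
      obtain ⟨w, hw⟩ := (c.F_neg_iff hd (i := l)).1 (by rw [hF]; simp [wv, hl])
      exact ⟨_, hw, hd.orth _ _, hd.orth _ _⟩)
    have h2 : ({i, j} : Finset (Fin 10)).card ≤ 2 := Finset.card_le_two
    omega

theorem face_mono {σ τ : Finset (Fin 10)} (h : c.Face σ) (hτ : τ ⊆ σ) : c.Face τ := by
  obtain ⟨x, hx⟩ := h
  exact ⟨x, fun j hj => hx j (hτ hj)⟩

end Col

end Vale.Agent.P052
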