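import Mathlib

/-! The Jacobian determinant is a null Lagrangian. -/

namespace Vale.Agent.P052

open MeasureTheory Set Filter Topology Polynomial

abbrev Sp (n : ℕ) : Type := Fin n → ℝ

/-- Jacobian determinant. -/
noncomputable def jac {n : ℕ} (g : Sp n → Sp n) (x : Sp n) : ℝ := (fderiv ℝ g x).det

variable {n : ℕ}

theorem continuous_jac {g : Sp n → Sp n} (hg : ContDiff ℝ 1 g) : Continuous (jac g) :=
  ContinuousLinearMap.continuous_det.comp (hg.continuous_fderiv one_ne_zero)

theorem det_ne_zero_of_inj (M : Sp n →L[ℝ] Sp n) (h : ∀ v, M v = 0 → v = 0) : M.det ≠ 0 := by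
  intro h0
  have h1 : LinearMap.det (M : Sp n →ₗ[ℝ] Sp n) = 0 := h0
  rw [LinearMap.det_eq_zero_iff_ker_ne_bot] at h1
  apply h1
  rw [LinearMap.ker_eq_bot']
  exact h

/-- A continuous nowhere vanishing function on a preconnected set keeps its sign. -/
theorem pos_of_preconnected {X : Type*} [TopologicalSpace X] {s : Set X} (hs : IsPreconnected s)
    {f : X → ℝ} (hf : ContinuousOn f s) (h0 : ∀ x ∈ s, f x ≠ 0) {a b : X} (ha : a ∈ s)
    (hb : b ∈ s) (hpos : 0 < f a) : 0 < f b := by
  by_contra hneg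
  have hle : f b ≤ 0 := not_lt.1 hneg
  have := hs.intermediate_value hb ha hf
  obtain ⟨x, hx, hx0⟩ := this ⟨hle, hpos.le⟩
  exact h0 x hx hx0

theorem det_one_add_pos (M : Sp n →L[ℝ] Sp n) (hM : ‖M‖ < 1) : 0 < (1 + M).det := by
  have hc : Continuous (fun t : ℝ => ((1 : Sp n →L[ℝ] Sp n) + t • M).det) :=
    ContinuousLinearMap.continuous_det.comp (by fun_prop)
  have h0 : ∀ t ∈ Icc (0 : ℝ) 1, ((1 : Sp n →L[ℝ] Sp n) + t • M).det ≠ 0 := by
    intro t ht
    apply det_ne_zero_of_inj
    intro v hv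
    simp only [add_apply, one_apply_eq_self, smul_apply] at hv
    have h1 : v = -(t • M v) := eq_neg_of_add_eq_zero_left hv
    have h2 : ‖v‖ ≤ t * (‖M‖ * ‖v‖) := by
      calc ‖v‖ = ‖t • M v‖ := by rw [← norm_neg (t • M v), ← h1]
        _ = t * ‖M v‖ := by rw [norm_smul, Real.norm_of_nonneg ht.1]
        _ ≤ t * (‖M‖ * ‖v‖) := mul_le_mul_of_nonneg_left (M.le_opNorm v) ht.1
    have h3 : t * (‖M‖ * ‖v‖) ≤ ‖M‖ * ‖v‖ :=
      mul_le_of_le_one_left (by positivity) ht.2
    by_contra hv0
    have : 0 < ‖v‖ := norm_pos_iff.2 hv0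
    nlinarith
  have := pos_of_preconnected (s := Icc (0 : ℝ) 1) isPreconnected_Icc hc.continuousOn h0
    (a := 0) (b := 1) (by simp) (by simp) (by
      simp only [zero_smul, add_zero]
      have : ((1 : Sp n →L[ℝ] Sp n)).det = 1 := LinearMap.det_id
      rw [this]; exact one_pos)
  simpa using this

theorem det_smul_one_add (M : Sp n →L[ℝ] Sp n) (s : ℝ) :
    (s • (1 : Sp n →L[ℝ] Sp n) + M).det
      = (LinearMap.charpoly (-(M : Sp n →ₗ[ℝ] Sp n))).eval s := by
  rw [LinearMap.eval_charpoly]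
  unfold ContinuousLinearMap.det
  congr 1
  ext v i
  simp [Algebra.algebraMap_eq_smul_one]

theorem det_smul_clm (M : Sp n →L[ℝ] Sp n) (s : ℝ) : (s • M).det = s ^ n * M.det := by
  unfold ContinuousLinearMap.det
  rw [ContinuousLinearMap.toLinearMap_smul, LinearMap.det_smul]
  simp

/-- Interpolation: the determinant of `M` is a fixed combination of shifted determinants. -/
theorem exists_interp (hn : 0 < n) (s0 : ℝ) :
    ∃ (a v : Fin (n + 1) → ℝ), (∀ j, s0 ≤ v j) ∧ ∀ M : Sp n →L[ℝ] Sp n,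
      M.det = ∑ j, a j * ((v j • (1 : Sp n →L[ℝ] Sp n) + M).det - v j ^ n) := by
  classical
  let v : Fin (n + 1) → ℝ := fun j => s0 + (j : ℕ)
  have hv : Set.InjOn v (Finset.univ : Finset (Fin (n + 1))) := by
    intro i _ j _ h
    have : ((i : ℕ) : ℝ) = (j : ℕ) := by simpa [v] using h
    exact Fin.ext (by exact_mod_cast this)
  refine ⟨fun j => (Lagrange.basis Finset.univ v j).eval 0, v, fun j => by
    simp only [v]; have : (0 : ℝ) ≤ ((j : ℕ) : ℝ) := by positivity
    linarith, fun M => ?_⟩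
  set p : ℝ[X] := LinearMap.charpoly (-(M : Sp n →ₗ[ℝ] Sp n)) - X ^ n with hp
  have hdeg : p.degree < (Finset.univ : Finset (Fin (n + 1))).card := by
    have h1 : (LinearMap.charpoly (-(M : Sp n →ₗ[ℝ] Sp n))).natDegree = n := by
      rw [LinearMap.charpoly_natDegree]; simp
    have h2 : p.natDegree ≤ n := by
      refine (natDegree_sub_le _ _).trans ?_
      rw [h1, natDegree_X_pow]; simp
    refine (degree_le_natDegree).trans_lt ?_
    simp only [Finset.card_univ, Fintype.card_fin]
    exact_mod_cast Nat.lt_succ_of_le h2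
  have h3 := Lagrange.eq_interpolate hv hdeg
  have h4 : p.eval 0 = M.det := by
    rw [hp, eval_sub, ← det_smul_one_add]
    simp [hn.ne']
  rw [← h4, h3, Lagrange.interpolate_apply, eval_finsetSum]
  refine Finset.sum_congr rfl fun j _ => ?_
  rw [eval_mul, eval_C, det_smul_one_add, hp, eval_sub]
  simp [mul_comm]

theorem fderiv_eq_zero_of_notMem {u : Sp n → Sp n} {x : Sp n} (hx : x ∉ tsupport u) :
    fderiv ℝ u x = 0 := by
  have : u =ᶠ[𝓝 x] fun _ => 0 := by
    filter_upwards [(isClosed_tsupport u).isOpen_compl.mem_nhds hx] with y hy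
    exact image_eq_zero_of_notMem_tsupport hy
  rw [this.fderiv_eq]; simp

/-- For a small compactly supported perturbation of the identity, the Jacobian integrates to the
volume. -/
theorem integral_det_one_add {u : Sp n → Sp n} (hu : ContDiff ℝ 1 u) {B : Set (Sp n)}
    (hB : IsCompact B) (hsupp : tsupport u ⊆ B) {C : NNReal} (hC : LipschitzWith C u)
    (hC1 : C < 1) :
    ∫ x in B, (((1 : Sp n →L[ℝ] Sp n) + fderiv ℝ u x).det - 1) = 0 := by
  set φ : Sp n → Sp n := fun x => x + u x with hφ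
  have hC1' : (C : ℝ) < 1 := by exact_mod_cast hC1
  have hinj : Function.Injective φ := by
    intro x y h
    have h1 : x - y = -(u x - u y) := by
      have : x + u x = y + u y := h
      rw [neg_sub, sub_eq_sub_iff_add_eq_add, this, add_comm]
    have h2 : ‖x - y‖ ≤ C * ‖x - y‖ := by
      calc ‖x - y‖ = ‖u x - u y‖ := by rw [h1, norm_neg]
        _ ≤ C * ‖x - y‖ := by simpa [dist_eq_norm] using hC.dist_le_mul x y
    by_contra hne
    have : 0 < ‖x - y‖ := norm_pos_iff.2 (sub_ne_zero.2 hne)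
    nlinarith
  have hsurj : Function.Surjective φ := by
    intro y
    have hcon : ContractingWith C (fun x => y - u x) := by
      refine ⟨hC1, LipschitzWith.of_dist_le_mul fun a b => ?_⟩
      have := hC.dist_le_mul a b
      rwa [dist_sub_left]
    refine ⟨hcon.fixedPoint _, ?_⟩
    have := hcon.fixedPoint_isFixedPt
    have h2 : y - u (hcon.fixedPoint _) = hcon.fixedPoint _ := this
    show hcon.fixedPoint _ + u (hcon.fixedPoint _) = y
    exact (eq_sub_iff_add_eq.1 h2.symm)
  have hout : ∀ x ∉ B, φ x = x := by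
    intro x hx
    have : u x = 0 := image_eq_zero_of_notMem_tsupport fun h => hx (hsupp h)
    simp [hφ, this]
  have himg : φ '' B = B := by
    apply Subset.antisymm
    · rintro _ ⟨x, hx, rfl⟩
      by_contra hn
      have := hout _ hn
      exact hn (by rw [← hinj this] at hx; exact hx)
    · intro y hy
      obtain ⟨x, rfl⟩ := hsurj y
      refine ⟨x, ?_, rfl⟩
      by_contra hx
      rw [hout x hx] at hy
      exact hx hy
  have hder : ∀ x ∈ B, HasFDerivWithinAt φ ((1 : Sp n →L[ℝ] Sp n) + fderiv ℝ u x) B x := by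
    intro x _
    exact ((hasFDerivAt_id x).add
      ((hu.differentiable one_ne_zero x).hasFDerivAt)).hasFDerivWithinAt
  have h1 := integral_image_eq_integral_abs_det_fderiv_smul volume hB.measurableSet hder
    hinj.injOn (fun _ => (1 : ℝ))
  rw [himg] at h1
  have hpos : ∀ x, 0 < ((1 : Sp n →L[ℝ] Sp n) + fderiv ℝ u x).det := fun x =>
    det_one_add_pos _ ((norm_fderiv_le_of_lipschitz ℝ hC).trans_lt hC1')
  have hcont : Continuous fun x => ((1 : Sp n →L[ℝ] Sp n) + fderiv ℝ u x).det :=
    ContinuousLinearMap.continuous_det.comp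
      (continuous_const.add (hu.continuous_fderiv one_ne_zero))
  rw [integral_sub (hcont.continuousOn.integrableOn_compact hB)
    (continuous_const.continuousOn.integrableOn_compact hB), h1, sub_eq_zero]
  refine integral_congr_ae (Eventually.of_forall fun x => ?_)
  simp [abs_of_pos (hpos x)]

theorem integral_jac_eq_zero (hn : 0 < n) {u : Sp n → Sp n} (hu : ContDiff ℝ 1 u)
    {B : Set (Sp n)} (hB : IsCompact B) (hsupp : tsupport u ⊆ B) :
    ∫ x in B, jac u x = 0 := by
  have hcs : HasCompactSupport u := hB.of_isClosed_subset (isClosed_tsupport u) hsupp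
  obtain ⟨C, hC⟩ := hu.lipschitzWith_of_hasCompactSupport hcs one_ne_zero
  obtain ⟨a, v, hv, hM⟩ := exists_interp hn ((C : ℝ) + 1)
  have hcd := hu.continuous_fderiv one_ne_zero
  have hcont : ∀ j, Continuous fun x =>
      a j * ((v j • (1 : Sp n →L[ℝ] Sp n) + fderiv ℝ u x).det - v j ^ n) := fun j =>
    continuous_const.mul ((ContinuousLinearMap.continuous_det.comp
      (continuous_const.add hcd)).sub continuous_const)
  unfold jac
  simp_rw [hM (fderiv ℝ u _)]
  rw [integral_finsetSum _ fun j _ => (hcont j).continuousOn.integrableOn_compact hB]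
  refine Finset.sum_eq_zero fun j _ => ?_
  have hC0 : (0 : ℝ) ≤ C := C.2
  have hvpos : 0 < v j := by linarith [hv j]
  have hu' : ContDiff ℝ 1 (fun x => (v j)⁻¹ • u x) := hu.const_smul _
  have hsupp' : tsupport (fun x => (v j)⁻¹ • u x) ⊆ B :=
    (tsupport_smul_subset_right (fun _ => (v j)⁻¹) u).trans hsupp
  have hlip : LipschitzWith (NNReal.mk (C / v j) (by positivity)) (fun x => (v j)⁻¹ • u x) := by
    refine LipschitzWith.of_dist_le_mul fun x y => ?_
    rw [dist_smul₀, Real.norm_of_nonneg (by positivity)]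
    have := hC.dist_le_mul x y
    calc (v j)⁻¹ * dist (u x) (u y) ≤ (v j)⁻¹ * (C * dist x y) :=
          mul_le_mul_of_nonneg_left this (by positivity)
      _ = C / v j * dist x y := by ring
  have h1 := integral_det_one_add hu' hB hsupp' hlip (by
    rw [← NNReal.coe_lt_coe]
    show (C : ℝ) / v j < 1
    rw [div_lt_one hvpos]; linarith [hv j])
  have h2 : ∀ x, a j * ((v j • (1 : Sp n →L[ℝ] Sp n) + fderiv ℝ u x).det - v j ^ n)
      = (a j * v j ^ n) * (((1 : Sp n →L[ℝ] Sp n)
        + fderiv ℝ (fun x => (v j)⁻¹ • u x) x).det - 1) := by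
    intro x
    have h3 : fderiv ℝ (fun x => (v j)⁻¹ • u x) x = (v j)⁻¹ • fderiv ℝ u x :=
      (((hu.differentiable one_ne_zero x).hasFDerivAt).const_smul (v j)⁻¹).fderiv
    have h4 : v j • (1 : Sp n →L[ℝ] Sp n) + fderiv ℝ u x
        = v j • ((1 : Sp n →L[ℝ] Sp n) + (v j)⁻¹ • fderiv ℝ u x) := by
      rw [smul_add, smul_smul, mul_inv_cancel₀ hvpos.ne', one_smul]
    rw [h3, h4, det_smul_clm]; ring
  simp_rw [h2]
  rw [integral_const_mul, h1, mul_zero]

/-- A smooth cutoff function. -/
theorem exists_cutoff {K t : Set (Sp n)} (hK : IsClosed K) (hKt : K ⊆ interior t) :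
    ∃ χ : Sp n → ℝ, ContDiff ℝ 1 χ ∧ (∀ᶠ x in 𝓝ˢ K, χ x = 1) ∧ (∀ x ∉ t, χ x = 0) ∧
      ∀ x, χ x ∈ Icc (0 : ℝ) 1 := by
  obtain ⟨f, h1, h2, h3⟩ := exists_contMDiffMap_one_nhds_of_subset_interior
    (n := 1) (modelWithCornersSelf ℝ (Sp n)) hK hKt
  exact ⟨f, f.contMDiff.contDiff, h1, h2, h3⟩

/-- Two `C¹` maps that agree off a compact set have the same Jacobian integral over it. -/
theorem integral_jac_congr (hn : 0 < n) {u v : Sp n → Sp n} (hu : ContDiff ℝ 1 u)
    (hv : ContDiff ℝ 1 v) {t : Set (Sp n)} (ht : IsCompact t) (huv : ∀ x ∉ t, u x = v x) :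
    ∫ x in t, jac u x = ∫ x in t, jac v x := by
  obtain ⟨B, hB, htB⟩ := exists_compact_superset ht
  obtain ⟨θ, hθ, hθ1, hθ0, -⟩ := exists_cutoff ht.isClosed htB
  have hsupp : ∀ w : Sp n → Sp n, tsupport (fun x => θ x • w x) ⊆ B := by
    intro w
    apply closure_minimal _ hB.isClosed
    intro x hx
    by_contra h
    exact hx (by simp [hθ0 x h])
  have hU := integral_jac_eq_zero hn (hθ.smul hu) hB (hsupp u)
  have hV := integral_jac_eq_zero hn (hθ.smul hv) hB (hsupp v)
  have hsub : t ⊆ B := htB.trans interior_subset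
  have hsplit : ∀ w : Sp n → Sp n, ContDiff ℝ 1 w →
      ∫ x in B, jac (fun x => θ x • w x) x
        = (∫ x in t, jac w x) + ∫ x in B \ t, jac (fun x => θ x • w x) x := by
    intro w hw
    have hc := continuous_jac (hθ.smul hw)
    have hi : IntegrableOn (jac fun x => θ x • w x) B := hc.continuousOn.integrableOn_compact hB
    rw [← integral_inter_add_sdiff ht.measurableSet hi, inter_eq_self_of_subset_right hsub]
    congr 1
    refine setIntegral_congr_fun ht.measurableSet fun x hx => ?_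
    have : (fun x => θ x • w x) =ᶠ[𝓝 x] w := by
      filter_upwards [hθ1.filter_mono (nhds_le_nhdsSet hx)] with y hy
      simp [hy]
    unfold jac
    rw [this.fderiv_eq]
  have hrest : ∫ x in B \ t, jac (fun x => θ x • u x) x
      = ∫ x in B \ t, jac (fun x => θ x • v x) x := by
    refine setIntegral_congr_fun (hB.measurableSet.diff ht.measurableSet) fun x hx => ?_
    have : (fun x => θ x • u x) =ᶠ[𝓝 x] (fun x => θ x • v x) := by
      filter_upwards [ht.isClosed.isOpen_compl.mem_nhds hx.2] with y hy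
      rw [huv y hy]
    unfold jac
    rw [this.fderiv_eq]
  have e1 := hsplit u hu
  have e2 := hsplit v hv
  have hU' : ∫ x in B, jac (fun x => θ x • u x) x = 0 := hU
  have hV' : ∫ x in B, jac (fun x => θ x • v x) x = 0 := hV
  linarith

end Vale.Agent.P052
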