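import Vale.Agent.P052.Degree

/-! Odd maps have nonzero degree; the Borsuk-Ulam theorem. -/

namespace Vale.Agent.P052

open MeasureTheory Set Filter Topology

variable {n : ℕ}

/-- The inductive invariant for making an odd map regular. -/
structure OddStep (f : Sp n → Sp n) (η : ℝ) (k : ℕ) (g : Sp n → Sp n) : Prop where
  smooth : ContDiff ℝ 1 g
  odd : ∀ x, g (-x) = -g x
  close : ∃ η' < η, ∀ x, ‖x‖ ≤ 1 → ‖g x - f x‖ ≤ η'
  reg0 : jac g 0 ≠ 0
  reg : ∀ x, g x = 0 → (∃ i : Fin n, i.val < k ∧ x i ≠ 0) → jac g x ≠ 0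

theorem oddStep_zero {f : Sp n → Sp n} (hf : Continuous f) (hodd : ∀ x, f (-x) = -f x)
    {η : ℝ} (hη : 0 < η) : ∃ g, OddStep f η 0 g := by
  obtain ⟨g₀, hg₀, hc, -⟩ := exists_reg_approx hf (η := η / 3) (by linarith)
  let g₁ : Sp n → Sp n := fun x => (1 / 2 : ℝ) • (g₀ x - g₀ (-x))
  have hg₁ : ContDiff ℝ 1 g₁ := (hg₀.sub (hg₀.comp contDiff_neg)).const_smul _
  set M := fderiv ℝ g₁ 0 with hM
  have hp : LinearMap.charpoly (-(M : Sp n →ₗ[ℝ] Sp n)) ≠ 0 :=
    (LinearMap.charpoly_monic _).ne_zero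
  obtain ⟨s, hs, hsr⟩ : ∃ s ∈ Ioo (0 : ℝ) (η / 3),
      ¬ (LinearMap.charpoly (-(M : Sp n →ₗ[ℝ] Sp n))).IsRoot s := by
    by_contra h
    push Not at h
    exact (Set.Ioo_infinite (by linarith : (0 : ℝ) < η / 3))
      ((Polynomial.finite_setOfPred_isRoot hp).subset h)
  refine ⟨fun x => s • x + g₁ x, (contDiff_id.const_smul s).add hg₁, fun x => ?_,
    ⟨η / 3 + η / 3, by linarith, fun x hx => ?_⟩, ?_, fun x _ ⟨i, hi, _⟩ => by omega⟩
  · simp only [g₁, neg_neg, smul_neg, neg_add_rev, smul_sub]; abel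
  · have h1 := hc x
    have h2 := hc (-x)
    rw [hodd] at h2
    have h3 : s • x + g₁ x - f x
        = s • x + (1 / 2 : ℝ) • ((g₀ x - f x) - (g₀ (-x) - -f x)) := by
      simp only [g₁]
      ext i
      simp only [Pi.add_apply, Pi.sub_apply, Pi.smul_apply, Pi.neg_apply, smul_eq_mul]
      ring
    rw [h3]
    refine (norm_add_le _ _).trans ?_
    rw [norm_smul, norm_smul, Real.norm_of_nonneg hs.1.le, Real.norm_of_nonneg (by norm_num)]
    have h4 := norm_sub_le (g₀ x - f x) (g₀ (-x) - -f x)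
    have h5 : s * ‖x‖ ≤ s := mul_le_of_le_one_right hs.1.le hx
    linarith [hs.2]
  · have h1 : HasFDerivAt (fun x : Sp n => s • x + g₁ x) (s • (1 : Sp n →L[ℝ] Sp n) + M) 0 :=
      ((hasFDerivAt_id (0 : Sp n)).const_smul s).add
        (hg₁.differentiable one_ne_zero 0).hasFDerivAt
    unfold jac
    rw [h1.fderiv, det_smul_one_add]
    exact hsr

theorem oddStep_succ {f : Sp n → Sp n} {η : ℝ} {k : ℕ} (hk : k < n) {g : Sp n → Sp n}
    (h : OddStep f η k g) : ∃ g', OddStep f η (k + 1) g' := by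
  obtain ⟨η', hη', hclose⟩ := h.close
  let i : Fin n := ⟨k, hk⟩
  let q : Sp n → Sp n := fun x => (x i ^ 3)⁻¹ • g x
  have hci : ContDiff ℝ 1 fun x : Sp n => x i ^ 3 := (contDiff_apply ℝ ℝ i).pow 3
  have hq : ∀ x : Sp n, x i ≠ 0 → DifferentiableAt ℝ q x := fun x hx =>
    ((hci.differentiable one_ne_zero x).inv (pow_ne_zero 3 hx)).smul
      (h.smooth.differentiable one_ne_zero x)
  have hN : volume (q '' {x | x i ≠ 0 ∧ jac q x = 0}) = 0 :=
    addHaar_image_eq_zero_of_det_fderivWithin_eq_zero volume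
      (fun x hx => ((hq x hx.1).hasFDerivAt).hasFDerivWithinAt) (fun x hx => hx.2)
  obtain ⟨y, hy, hyN⟩ := exists_small_notMem hN (sub_pos.2 hη')
  have hzero : ∀ x : Sp n, x i = 0 → jac (fun x => g x - x i ^ 3 • y) x = jac g x := by
    intro x hx
    have h1 : HasFDerivAt (fun x : Sp n => x i ^ 3) (0 : Sp n →L[ℝ] ℝ) x := by
      have h2 : HasFDerivAt (fun f : Sp n => f i)
          (ContinuousLinearMap.proj (R := ℝ) (φ := fun _ : Fin n => ℝ) i) x :=
        hasFDerivAt_apply (𝕜 := ℝ) i x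
      have h3 := h2.pow 3
      simpa [hx] using h3
    have h4 := ((h.smooth.differentiable one_ne_zero x).hasFDerivAt).sub (h1.smul_const y)
    have h5 : HasFDerivAt (fun x : Sp n => g x - x i ^ 3 • y) (fderiv ℝ g x) x :=
      h4.congr_fderiv (by ext v j; simp)
    unfold jac
    rw [h5.fderiv]
  refine ⟨fun x => g x - x i ^ 3 • y, h.smooth.sub (hci.smul contDiff_const), fun x => ?_,
    ⟨η' + ‖y‖, by linarith, fun x hx => ?_⟩, ?_, fun x h0 hex => ?_⟩
  · rw [h.odd]
    simp only [Pi.neg_apply, Odd.neg_pow (by decide : Odd 3), neg_smul]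
    abel
  · have h1 : g x - x i ^ 3 • y - f x = (g x - f x) - x i ^ 3 • y := by abel
    rw [h1]
    refine (norm_sub_le _ _).trans (add_le_add (hclose x hx) ?_)
    rw [norm_smul, norm_pow]
    have h2 : ‖x i‖ ≤ 1 := (norm_le_pi_norm x i).trans hx
    exact mul_le_of_le_one_left (norm_nonneg _) (pow_le_one₀ (norm_nonneg _) h2)
  · rw [hzero 0 rfl]; exact h.reg0
  · by_cases hx : x i = 0
    · rw [hzero x hx]
      have h1 : g x = 0 := by simpa [hx] using h0
      refine h.reg x h1 ?_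
      obtain ⟨j, hj, hxj⟩ := hex
      refine ⟨j, ?_, hxj⟩
      rcases Nat.lt_succ_iff_lt_or_eq.1 hj with h2 | h2
      · exact h2
      · exact (hxj (by rw [show j = i from Fin.ext h2]; exact hx)).elim
    · have hx3 : x i ^ 3 ≠ 0 := pow_ne_zero 3 hx
      have hqx : q x = y := by
        simp only [q]
        rw [sub_eq_zero.1 h0, smul_smul, inv_mul_cancel₀ hx3, one_smul]
      have hjq : jac q x ≠ 0 := fun hj => hyN ⟨x, ⟨hx, hj⟩, hqx⟩
      have hev : (fun x => g x - x i ^ 3 • y) =ᶠ[𝓝 x] fun z => z i ^ 3 • (q z - y) := by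
        have : ∀ᶠ z in 𝓝 x, z i ≠ 0 := (continuous_apply i).continuousAt.eventually_ne hx
        filter_upwards [this] with z hz
        simp only [q]
        rw [smul_sub, smul_smul, mul_inv_cancel₀ (pow_ne_zero 3 hz), one_smul]
      have h1 := (hci.differentiable one_ne_zero x).hasFDerivAt.smul
        ((hq x hx).hasFDerivAt.sub_const y)
      have h2 : HasFDerivAt (fun z : Sp n => z i ^ 3 • (q z - y)) (x i ^ 3 • fderiv ℝ q x) x :=
        h1.congr_fderiv (by ext v j; simp [hqx])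
      unfold jac
      rw [hev.fderiv_eq, h2.fderiv, det_smul_clm]
      exact mul_ne_zero (pow_ne_zero _ hx3) hjq

theorem deg_odd_ne_zero (hn : 0 < n) {f : Sp n → Sp n} (hf : Continuous f)
    (hodd : ∀ x, f (-x) = -f x) (h0 : ∀ x, f x = 0 → x = 0) : deg f univ ≠ 0 := by
  classical
  have hcl : closure (Metric.ball (0 : Sp n) 1) = Metric.closedBall 0 1 :=
    closure_ball 0 one_ne_zero
  obtain ⟨η, hη, hmar⟩ := exists_margin (f := f)
    ((isCompact_closedBall (0 : Sp n) 1).diff (Metric.isOpen_ball (x := 0) (ε := 1)))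
    hf.continuousOn (fun x hx h => hx.2 (by rw [h0 x h]; simp))
  have hall : ∀ k ≤ n, ∃ g, OddStep f η k g := by
    intro k
    induction k with
    | zero => exact fun _ => oddStep_zero hf hodd hη
    | succ k ih =>
      intro hk
      obtain ⟨g, hg⟩ := ih (by omega)
      exact oddStep_succ (by omega) hg
  obtain ⟨g, hg⟩ := hall n le_rfl
  obtain ⟨η', hη', hclose⟩ := hg.close
  have hreg : IsReg g univ := by
    intro x _ hx
    by_cases h : x = 0
    · rw [h]; exact hg.reg0
    · obtain ⟨i, hi⟩ := Function.ne_iff.1 h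
      exact hg.reg x hx ⟨i, i.2, hi⟩
  have hadm : Adm f univ (Metric.ball 0 1) g := by
    refine ⟨Metric.isOpen_ball, by rw [hcl]; exact isCompact_closedBall _ _, subset_univ _,
      fun x _ h => by rw [h0 x h]; simp, hg.smooth, fun x hx => ?_, fun x _ => hreg x trivial⟩
    rw [hcl] at hx
    exact ((hclose x (mem_closedBall_zero_iff.1 hx.1)).trans_lt hη').trans_le (hmar x hx)
  rw [deg_eq hn hf hadm]
  have hfin : (zs g (Metric.ball 0 1)).Finite :=
    (finite_zs hg.smooth (isCompact_closedBall (0 : Sp n) 1) fun x _ => hreg x trivial).subset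
      fun x hx => ⟨Metric.ball_subset_closedBall hx.1, hx.2⟩
  unfold cnt
  rw [finsum_mem_eq_finite_toFinset_sum _ hfin]
  intro hsum
  have h1 : ((∑ x ∈ hfin.toFinset, sgn (jac g x) : ℤ) : ZMod 2) = 0 := by rw [hsum]; simp
  rw [Int.cast_sum] at h1
  have h2 : ∀ x, ((sgn (jac g x) : ℤ) : ZMod 2) = 1 := fun x => by
    rcases sgn_eq_or (jac g x) with h | h <;> rw [h] <;> decide
  simp only [h2] at h1
  have hg0 : g 0 = 0 := by
    have := hg.odd 0
    rw [neg_zero] at this
    ext i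
    have := congrFun this i
    simp only [Pi.neg_apply] at this
    simp only [Pi.zero_apply]; linarith
  have hmem0 : (0 : Sp n) ∈ hfin.toFinset := hfin.mem_toFinset.2 ⟨by simp, hg0⟩
  rw [← Finset.add_sum_erase _ _ hmem0] at h1
  have h3 : ∑ _x ∈ hfin.toFinset.erase 0, (1 : ZMod 2) = 0 := by
    refine Finset.sum_involution (fun x _ => -x) (fun _ _ => by decide) (fun x hx _ h => ?_)
      (fun x hx => ?_) (fun x _ => neg_neg x)
    · apply (Finset.mem_erase.1 hx).1
      ext i
      have := congrFun h i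
      simp only [Pi.neg_apply] at this
      simp only [Pi.zero_apply]; linarith
    · obtain ⟨a, b⟩ := Finset.mem_erase.1 hx
      have b' := hfin.mem_toFinset.1 b
      refine Finset.mem_erase.2 ⟨neg_ne_zero.2 a, hfin.mem_toFinset.2 ⟨?_, ?_⟩⟩
      · simpa using b'.1
      · rw [hg.odd, b'.2, neg_zero]
  rw [h3] at h1
  exact absurd h1 (by decide)

/-- Borsuk-Ulam in the form: an odd map with a vanishing coordinate has a nonzero zero. -/
theorem borsuk_ulam {f : Sp n → Sp n} (hf : Continuous f) (hodd : ∀ x, f (-x) = -f x)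
    (j : Fin n) (hj : ∀ x, f x j = 0) : ∃ x, x ≠ 0 ∧ f x = 0 := by
  by_contra h
  push Not at h
  have hn : 0 < n := j.pos
  have h0 : ∀ x, f x = 0 → x = 0 := fun x hx => by
    by_contra hne; exact h x hne hx
  have h1 := deg_odd_ne_zero hn hf hodd h0
  have h2 : deg f univ = deg (fun x => f x - Pi.single j 1) univ := by
    refine deg_segment hn hf (hf.sub continuous_const) isOpen_univ
      (isCompact_singleton (x := (0 : Sp n))) (subset_univ _) fun x _ s _ hs => ?_
    have a := congrFun hs j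
    simp [hj] at a
    subst a
    apply h0
    simpa using hs
  rw [h2] at h1
  refine h1 (deg_eq_zero hn (hf.sub continuous_const) fun x _ hx => ?_)
  have := congrFun hx j
  simp [hj] at this

end Vale.Agent.P052
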