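import Vale.Agent.P052.Comb

/-! From uniformly non-orthogonal sets of unit vectors to a colouring. -/

namespace Vale.Agent.P052

open Matrix Set Metric
open scoped Pointwise

theorem abs_dot_le (a b : V4) : |a ⬝ᵥ b| ≤ 4 * (‖a‖ * ‖b‖) := by
  have h : ∀ i, |a i * b i| ≤ ‖a‖ * ‖b‖ := fun i => by
    rw [abs_mul]
    exact mul_le_mul (norm_le_pi_norm a i) (norm_le_pi_norm b i) (abs_nonneg _) (norm_nonneg _)
  simp only [dotProduct, Fin.sum_univ_four]
  have h0 := abs_le.1 (h 0)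
  have h1 := abs_le.1 (h 1)
  have h2 := abs_le.1 (h 2)
  have h3 := abs_le.1 (h 3)
  rw [abs_le]; constructor <;> linarith

theorem norm_le_one_of_dot {x : V4} (h : x ⬝ᵥ x = 1) : ‖x‖ ≤ 1 := by
  rw [pi_norm_le_iff_of_nonneg zero_le_one]
  intro i
  have : x i * x i ≤ x ⬝ᵥ x :=
    Finset.single_le_sum (f := fun i => x i * x i) (fun j _ => mul_self_nonneg _)
      (Finset.mem_univ i)
  rw [h] at this
  exact abs_le_one_iff_mul_self_le_one.2 this

/-- The cone over a set. -/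
def cone (C : Set V4) : Set V4 := {d | d = 0 ∨ ∃ (t : ℝ) (x : V4), x ∈ C ∧ d = t • x}

theorem zero_mem_cone (C : Set V4) : (0 : V4) ∈ cone C := Or.inl rfl

theorem cone_smul {C : Set V4} {d : V4} (h : d ∈ cone C) (s : ℝ) : s • d ∈ cone C := by
  rcases h with rfl | ⟨t, x, hx, rfl⟩
  · left; simp
  · right; exact ⟨s * t, x, hx, smul_smul _ _ _⟩

theorem smul_cone (C : Set V4) {s : ℝ} (hs : s ≠ 0) : s • cone C = cone C := by
  ext d
  constructor
  · rintro ⟨e, he, rfl⟩; exact cone_smul he s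
  · intro h
    exact ⟨s⁻¹ • d, cone_smul h _, by simp [smul_smul, hs]⟩

theorem near_cone {C : Set V4} (hC : ∀ x ∈ C, x ⬝ᵥ x = 1) {κ : ℝ} (hκ : κ ≤ 1 / 2) {v : V4}
    (h : 0 < max 0 (κ * ‖v‖ - infDist v (cone C))) :
    ∃ (t : ℝ) (x e : V4), x ∈ C ∧ v = t • x + e ∧ ‖e‖ ≤ κ * ‖v‖ ∧ ‖v‖ / 2 ≤ |t| ∧
      ‖t • x‖ ≤ 3 / 2 * ‖v‖ ∧ 0 < ‖v‖ := by
  have h1 : infDist v (cone C) < κ * ‖v‖ := by
    rcases lt_max_iff.1 h with h | h
    · exact (lt_irrefl _ h).elim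
    · linarith
  obtain ⟨d, hd, hvd⟩ := (infDist_lt_iff ⟨0, zero_mem_cone C⟩).1 h1
  rw [dist_eq_norm] at hvd
  have hv := norm_nonneg v
  have hk : κ * ‖v‖ ≤ ‖v‖ / 2 := by nlinarith
  rcases hd with rfl | ⟨t, x, hx, rfl⟩
  · rw [sub_zero] at hvd; linarith
  refine ⟨t, x, v - t • x, hx, by abel, hvd.le, ?_, ?_, ?_⟩
  · have a : ‖v‖ ≤ ‖t • x‖ + ‖v - t • x‖ := by
      simpa using norm_add_le (t • x) (v - t • x)
    have b : ‖t • x‖ ≤ |t| := by
      rw [norm_smul]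
      exact mul_le_of_le_one_right (abs_nonneg t) (norm_le_one_of_dot (hC x hx))
    linarith
  · have a : ‖t • x‖ ≤ ‖v‖ + ‖v - t • x‖ := by
      simpa using norm_sub_le v (v - t • x)
    linarith
  · linarith [norm_nonneg (v - t • x)]

theorem no_cover (C : Fin 10 → Set V4) (hunit : ∀ l, ∀ x ∈ C l, x ⬝ᵥ x = 1)
    (hcov : ∀ x : V4, x ⬝ᵥ x = 1 → ∃ l, x ∈ C l) (η : Fin 10 → ℝ) (hη : ∀ l, 0 < η l)
    (hη1 : ∀ l, η l ≤ 1) (hsep : ∀ l, ∀ x ∈ C l, ∀ y ∈ C l, η l ≤ |x ⬝ᵥ y|) : False := by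
  refine Col.false ⟨fun l v => max 0 (η l / 50 * ‖v‖ - infDist v (cone (C l))), fun l => ?_,
    fun l v => le_max_left _ _, fun l t v => ?_, fun v hv => ?_, fun l v w hv hw => ?_⟩
  · exact continuous_const.max ((continuous_const.mul continuous_norm).sub
      (continuous_infDist_pt _))
  · by_cases ht : t = 0
    · subst ht
      rw [zero_smul, infDist_zero_of_mem (zero_mem_cone _)]; simp
    · have : infDist (t • v) (cone (C l)) = |t| * infDist v (cone (C l)) := by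
        conv_lhs => rw [← smul_cone (C l) ht]
        rw [infDist_smul₀ ht, Real.norm_eq_abs]
      rw [this, norm_smul, Real.norm_eq_abs, mul_max_of_nonneg _ _ (abs_nonneg t)]
      congr 1 <;> ring
  · have hp : 0 < v ⬝ᵥ v := lt_of_le_of_ne
      (Finset.sum_nonneg fun i _ => mul_self_nonneg _)
      fun h => hv (dotProduct_self_eq_zero.1 h.symm)
    have hs : 0 < Real.sqrt (v ⬝ᵥ v) := Real.sqrt_pos.2 hp
    obtain ⟨l, hl⟩ := hcov ((Real.sqrt (v ⬝ᵥ v))⁻¹ • v) (by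
      rw [smul_dotProduct, dotProduct_smul, smul_eq_mul, smul_eq_mul, ← mul_assoc, ← mul_inv,
        Real.mul_self_sqrt hp.le, inv_mul_cancel₀ hp.ne'])
    refine ⟨l, ?_⟩
    have : v ∈ cone (C l) := Or.inr ⟨Real.sqrt (v ⬝ᵥ v), _, hl, by
      rw [smul_smul, mul_inv_cancel₀ hs.ne', one_smul]⟩
    rw [infDist_zero_of_mem this, sub_zero]
    exact lt_max_of_lt_right (mul_pos (by linarith [hη l]) (norm_pos_iff.2 hv))
  · have hk : η l / 50 ≤ 1 / 2 := by linarith [hη1 l]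
    obtain ⟨t, x, e, hx, e1, e2, e3, e4, e5⟩ := near_cone (hunit l) hk hv
    obtain ⟨s, y, f, hy, f1, f2, f3, f4, f5⟩ := near_cone (hunit l) hk hw
    intro h0
    have a : v ⬝ᵥ w = t * s * (x ⬝ᵥ y) + (t • x) ⬝ᵥ f + e ⬝ᵥ w := by
      conv_lhs => rw [e1, add_dotProduct]
      congr 1
      conv_lhs => rw [f1, dotProduct_add, smul_dotProduct, dotProduct_smul]
      simp [mul_assoc]
    have hp : 0 < ‖v‖ * ‖w‖ := mul_pos e5 f5
    have b1 : η l / 4 * (‖v‖ * ‖w‖) ≤ |t * s * (x ⬝ᵥ y)| := by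
      rw [abs_mul, abs_mul]
      have := mul_le_mul e3 f3 (by positivity) (abs_nonneg t)
      have := mul_le_mul this (hsep l x hx y hy) (hη l).le (by positivity)
      linarith
    have b2 : |(t • x) ⬝ᵥ f| ≤ 6 * (η l / 50) * (‖v‖ * ‖w‖) := by
      refine (abs_dot_le _ _).trans ?_
      have := mul_le_mul e4 f2 (norm_nonneg _) (by positivity)
      linarith
    have b3 : |e ⬝ᵥ w| ≤ 4 * (η l / 50) * (‖v‖ * ‖w‖) := by
      refine (abs_dot_le _ _).trans ?_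
      have := mul_le_mul_of_nonneg_right e2 (norm_nonneg w)
      linarith
    have b4 : t * s * (x ⬝ᵥ y) = -((t • x) ⬝ᵥ f + e ⬝ᵥ w) := by linarith
    rw [b4, abs_neg] at b1
    have b5 := abs_add_le ((t • x) ⬝ᵥ f) (e ⬝ᵥ w)
    have := mul_pos (hη l) hp
    linarith

/-- Unit vectors together with extra apex points. -/
abbrev Idx (k : ℕ) : Type := {x : V4 // x ⬝ᵥ x = 1} ⊕ Fin k

/-- Coordinates of the rank one projector. -/
noncomputable def ver (x : V4) : Fin 10 → ℝ :=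
  ![x 0 * x 0, x 1 * x 1, x 2 * x 2, x 3 * x 3, √2 * (x 0 * x 1), √2 * (x 0 * x 2),
    √2 * (x 0 * x 3), √2 * (x 1 * x 2), √2 * (x 1 * x 3), √2 * (x 2 * x 3)]

/-- The configuration in the ambient space. -/
noncomputable def amb {k : ℕ} : Idx k → EuclideanSpace ℝ (Fin 10 ⊕ Fin k)
  | Sum.inl x => WithLp.toLp 2 (Sum.elim (ver x.1) 0)
  | Sum.inr j => WithLp.toLp 2 (Sum.elim 0 (Pi.single j 1))

/-- The normal vector of the hyperplane. -/
noncomputable def nrm (k : ℕ) : EuclideanSpace ℝ (Fin 10 ⊕ Fin k) :=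
  WithLp.toLp 2 (Sum.elim ![1, 1, 1, 1, 0, 0, 0, 0, 0, 0] 1)

theorem ver_dot (x y : V4) : ∑ i, ver x i * ver y i = (x ⬝ᵥ y) ^ 2 := by
  have h : √2 * √2 = 2 := Real.mul_self_sqrt (by norm_num)
  simp only [ver, dotProduct, Fin.sum_univ_succ, Fin.sum_univ_zero]
  simp
  linear_combination (x 0 * x 1 * y 0 * y 1 + x 0 * x 2 * y 0 * y 2 + x 0 * x 3 * y 0 * y 3
    + x 1 * x 2 * y 1 * y 2 + x 1 * x 3 * y 1 * y 3 + x 2 * x 3 * y 2 * y 3) * h

theorem inner_amb_ll {k : ℕ} (x y : {x : V4 // x ⬝ᵥ x = 1}) :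
    inner ℝ (amb (k := k) (Sum.inl x)) (amb (Sum.inl y)) = (x.1 ⬝ᵥ y.1) ^ 2 := by
  rw [← ver_dot]
  simp [amb, PiLp.inner_apply, Fintype.sum_sum_type, mul_comm]

theorem inner_amb_lr {k : ℕ} (x : {x : V4 // x ⬝ᵥ x = 1}) (j : Fin k) :
    inner ℝ (amb (k := k) (Sum.inl x)) (amb (Sum.inr j)) = 0 := by
  simp [amb, PiLp.inner_apply, Fintype.sum_sum_type]

theorem inner_amb_rr {k : ℕ} (i j : Fin k) :
    inner ℝ (amb (k := k) (Sum.inr i)) (amb (Sum.inr j)) = if i = j then 1 else 0 := by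
  simp [amb, PiLp.inner_apply, Fintype.sum_sum_type, Pi.single_apply, eq_comm]

theorem inner_amb_self {k : ℕ} (a : Idx k) : inner ℝ (amb a) (amb a) = 1 := by
  rcases a with x | j
  · rw [inner_amb_ll, x.2]; norm_num
  · rw [inner_amb_rr, if_pos rfl]

theorem inner_amb_nonneg {k : ℕ} (a b : Idx k) : 0 ≤ inner ℝ (amb a) (amb b) := by
  rcases a with x | i <;> rcases b with y | j
  · rw [inner_amb_ll]; positivity
  · rw [inner_amb_lr]
  · rw [real_inner_comm, inner_amb_lr]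
  · rw [inner_amb_rr]; split_ifs <;> norm_num

theorem inner_nrm {k : ℕ} (a : Idx k) : inner ℝ (nrm k) (amb a) = 1 := by
  rcases a with x | j
  · have := x.2
    simp only [dotProduct, Fin.sum_univ_four] at this
    simp [amb, nrm, ver, PiLp.inner_apply, Fintype.sum_sum_type, Fin.sum_univ_succ]
    linarith
  · simp [amb, nrm, PiLp.inner_apply, Fintype.sum_sum_type, Pi.single_apply]

theorem exists_config (k : ℕ) : ∃ g : Idx k → EuclideanSpace ℝ (Fin (9 + k)),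
    ∀ a b, dist (g a) (g b) ^ 2 = 2 - 2 * inner ℝ (amb a) (amb b) := by
  have : Fact (Module.finrank ℝ (EuclideanSpace ℝ (Fin 10 ⊕ Fin k)) = (9 + k) + 1) :=
    ⟨by simp; omega⟩
  let a₀ : Idx k := Sum.inl ⟨e1, by simp [e1, dotProduct, Fin.sum_univ_four]⟩
  have hn : nrm k ≠ 0 := fun h => by
    have := inner_nrm a₀
    rw [h, inner_zero_left] at this
    exact zero_ne_one this
  let B := OrthonormalBasis.fromOrthogonalSpanSingleton (𝕜 := ℝ) (9 + k) hn
  have hmem : ∀ a, amb a - amb a₀ ∈ (ℝ ∙ nrm k)ᗮ := fun a => by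
    rw [Submodule.mem_orthogonal_singleton_iff_inner_right, inner_sub_right, inner_nrm, inner_nrm,
      sub_self]
  refine ⟨fun a => B.repr ⟨_, hmem a⟩, fun a b => ?_⟩
  rw [B.repr.dist_map, Subtype.dist_eq, dist_sub_right, dist_eq_norm, ← real_inner_self_eq_norm_sq,
    inner_sub_left, inner_sub_right, inner_sub_right, inner_amb_self, inner_amb_self,
    real_inner_comm (amb a) (amb b)]
  ring

end Vale.Agent.P052
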